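import Vale.Agent.P354Z.Defs

open Set

namespace Vale.Agent.P354Z

open Vale.Agent.P354I (X Good)

/-- The statement of the problem; the last two clauses are stronger forms. -/
def Q1 : Prop :=
  ∀ M a : ℝ, 0 < M → 0 < |a| → |a| < M → ∀ ρ : X → ℝ, IsWt M a ρ →
    ∃ U : Set (DD M a ρ), IsOpen U ∧ (∃ d ∈ U, d.1 = kerr0 M a) ∧
      IsMeagre {d : U | Ext d.1.1} ∧ IsMeagre {d : U | ¬ Good d.1.1} ∧ Dense {d : U | Good d.1.1}

/-- Good data have no extension of the maximal development. -/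
theorem not_ext {d : P354I.Dat} (h : Good d) : ¬ Ext d := by
  rintro ⟨N, j, hN, N', ι, c, -, he⟩
  obtain ⟨N0, j0, h0, -, H⟩ := h
  obtain ⟨κ, k1, k2, k3⟩ := hN.2 N0 j0 h0
  exact H N j κ hN.1 k1 k2 k3 N' ι c he

end Vale.Agent.P354Z
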