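import Vale.Agent.P354I.Defs

open scoped ContDiff
open MeasureTheory Set Filter Topology Matrix

namespace Vale.Agent.P354Z

open Vale.Agent.P354n (Spc IsC0W1 IsFutureExtension IsIsom)
open Vale.Agent.P354I (X Dat ee pd dT dP rnd Sg IsDev)

/-- The hypersurface R x S^2 is X without the origin: y = R (sin θ cos φ, sin θ sin φ, cos θ), where
R > 0 is the quasi-isotropic radius. rad is the Boyer-Lindquist radius r, which is minimal (r = r_+)
on the bifurcation sphere 2 R = sqrt (M^2 - a^2) and tends to infinity at both ends; sD is the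
square root of Δ = r^2 - 2 M r + a^2 which changes sign there; dr = sD dR / R. -/
noncomputable def rad (M a : ℝ) (y : X) : ℝ := ‖y‖ + M + (M ^ 2 - a ^ 2) / (4 * ‖y‖)
noncomputable def sD (M a : ℝ) (y : X) : ℝ := ‖y‖ - (M ^ 2 - a ^ 2) / (4 * ‖y‖)

/-- The functions sin^2 θ and A = (r^2 + a^2)^2 - a^2 Δ sin^2 θ. -/
noncomputable def s2 (y : X) : ℝ := (y 0 ^ 2 + y 1 ^ 2) / ‖y‖ ^ 2
noncomputable def AA (M a r : ℝ) (y : X) : ℝ :=
  (r ^ 2 + a ^ 2) ^ 2 - a ^ 2 * (r ^ 2 - 2 * M * r + a ^ 2) * s2 y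

/-- The form dω / sD, for ω = 2 M a r / A. -/
noncomputable def dOm (M a : ℝ) (y v : X) : ℝ :=
  deriv (fun r => 2 * M * a * r / AA M a r y) (rad M a y) * dT y v +
    2 * M * a ^ 3 * rad M a y * sD M a y / AA M a (rad M a y) y ^ 2 * fderiv ℝ s2 y v

/-- The data induced on t = 0 by the Kerr metric
-α^2 dt^2 + Sg dr^2 / Δ + Sg dθ^2 + (A / Sg) sin^2 θ (dφ - ω dt)^2, where Sg = r^2 + a^2 cos^2 θ and
α = sD sqrt (Sg / A); the future unit normal is (d/dt + ω d/dφ) / α, and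
K = (dω ⊗ h(d/dφ) + h(d/dφ) ⊗ dω) / (2 α). Here dT = dR / R, dP = sin^2 θ dφ, and rnd is
dθ^2 + sin^2 θ dφ^2. -/
noncomputable def kerr0 (M a : ℝ) : Dat where
  h y := Matrix.of fun i j =>
    Sg a (rad M a y) y * (dT y (ee i) * dT y (ee j) + rnd y (ee i) (ee j)) +
      a ^ 2 * (1 + 2 * M * rad M a y / Sg a (rad M a y) y) * (dP y (ee i) * dP y (ee j))
  K y := Matrix.of fun i j => √(AA M a (rad M a y) y / Sg a (rad M a y) y) ^ 3 / 2 *
    (dOm M a y (ee i) * dP y (ee j) + dP y (ee i) * dOm M a y (ee j))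

/-- Covariant tensor fields of rank k, given by their components. -/
abbrev Ten (k : ℕ) : Type := (Fin k → Fin 3) → X → ℝ

/-- The covariant derivative for the metric of d, and its iterates on a 2-tensor u. -/
noncomputable def cov (d : Dat) (k : ℕ) (T : Ten k) : Ten (k + 1) := fun I y =>
  pd (I 0) (T (Fin.tail I)) y -
    ∑ l : Fin k, ∑ m, d.chr m (I 0) (I l.succ) y * T (Function.update (Fin.tail I) l m) y
noncomputable def covN (d : Dat) (u : X → Matrix (Fin 3) (Fin 3) ℝ) (j : ℕ) : Ten (2 + j) :=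
  Nat.rec (motive := fun j => Ten (2 + j)) (fun I y => u y (I 0) (I 1)) (fun j => cov d (2 + j)) j

/-- The norm for the metric of d. -/
noncomputable def nrm (d : Dat) (k : ℕ) (T : Ten k) (y : X) : ℝ :=
  √(∑ I, ∑ J, (∏ l, (d.h y)⁻¹ (I l) (J l)) * T I y * T J y)

/-- The supremum of ρ^(n+j) times the norm of the j-th covariant derivative of u. -/
noncomputable def sn (k : Dat) (ρ : X → ℝ) (n j : ℕ) (u : X → Matrix (Fin 3) (Fin 3) ℝ) : ENNReal :=
  ⨆ y : X, ⨆ _ : y ≠ 0, ENNReal.ofReal (ρ y ^ (n + j) * nrm k (2 + j) (covN k u j) y)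

/-- The seminorm p_m of the difference of two data, for the background k and the weight ρ. -/
noncomputable def pn (k : Dat) (ρ : X → ℝ) (m : ℕ) (d d' : Dat) : ENNReal :=
  ∑ j ∈ Finset.range (m + 1), (sn k ρ 1 j (d.h - d'.h) + sn k ρ 2 j (d.K - d'.K))

/-- ρ ≥ 1 is smooth and equal to the radial coordinate outside a compact set. -/
structure IsWt (M a : ℝ) (ρ : X → ℝ) : Prop where
  smooth : ContDiffOn ℝ ∞ ρ {0}ᶜ
  one_le : ∀ y ≠ 0, 1 ≤ ρ y
  ends : ∃ Q ⊆ ({0}ᶜ : Set X), IsCompact Q ∧ ∀ y ≠ 0, y ∉ Q → ρ y = rad M a y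

/-- h is complete: curves of finite length stay in a compact set. -/
def Complete (d : Dat) : Prop :=
  ∀ c : ℝ → X, ContDiffOn ℝ 1 c (Ioo 0 1) → (∀ t ∈ Ioo (0 : ℝ) 1, c t ≠ 0) →
    ∫⁻ t in Ioo (0 : ℝ) 1, ENNReal.ofReal √(∑ i, ∑ j, d.h (c t) i j * deriv c t i * deriv c t j) < ⊤ →
    ∃ Q ⊆ ({0}ᶜ : Set X), IsCompact Q ∧ ∀ t ∈ Ioo (0 : ℝ) 1, c t ∈ Q

/-- Smooth data with complete Riemannian h and symmetric K, all p_m of the difference to the Kerr
data finite, which solve the vacuum constraint equations. -/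
structure IsD (M a : ℝ) (ρ : X → ℝ) (d : Dat) : Prop where
  smooth : ∀ i j, ContDiffOn ℝ ∞ (fun y => d.h y i j) {0}ᶜ ∧
    ContDiffOn ℝ ∞ (fun y => d.K y i j) {0}ᶜ
  pos : ∀ y ≠ 0, (d.h y).PosDef ∧ (d.K y).IsSymm
  complete : Complete d
  finite : ∀ m, pn (kerr0 M a) ρ m d (kerr0 M a) < ⊤
  hamilton : ∀ y ≠ 0, d.scal y + d.trK y ^ 2 - d.sqK y = 0
  momentum : ∀ y ≠ 0, ∀ j, d.divK j y - pd j d.trK y = 0

/-- The space of data. -/
def DD (M a : ℝ) (ρ : X → ℝ) : Type := {d : Dat // IsD M a ρ d}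

/-- The topology of all p_m of differences. -/
instance (M a : ℝ) (ρ : X → ℝ) : TopologicalSpace (DD M a ρ) :=
  TopologicalSpace.generateFrom
    {S | ∃ (d : DD M a ρ) (m : ℕ) (ε : ENNReal), S = {d' | pn (kerr0 M a) ρ m d'.1 d.1 < ε}}

/-- N is the maximal globally hyperbolic vacuum development of d: every development embeds into
it. -/
def IsMGHD (d : Dat) (N : Spc) (j : X → N.pt) : Prop :=
  IsDev d N j ∧ ∀ (N' : Spc) (j' : X → N'.pt), IsDev d N' j' →
    ∃ κ : N'.pt → N.pt, IsOpenEmbedding κ ∧ IsIsom κ ∧ ∀ y ≠ 0, κ (j' y) = j y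

/-- The maximal development of d has a future extension of class C^0 and W^{1,2}_loc. -/
def Ext (d : Dat) : Prop :=
  ∃ N j, IsMGHD d N j ∧ ∃ N' ι c, ConnectedSpace N'.pt ∧ IsFutureExtension (IsC0W1 2) N N' ι c

end Vale.Agent.P354Z
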