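import Vale.Agent.P354XR.Gin
import Vale.Agent.P354XR.Su
import Vale.Agent.P354XD.Rot
import Vale.Agent.P354XI.Inst
import Vale.Agent.P354XT.Defs
import Vale.Agent.P354YK.Out
import Vale.Agent.P354YF.Jet

/-!
The state of the estimates: one chart (t, r, xi), one metric, two null frames, the parameters of
the Kerr metric to which they are compared.
-/

open scoped ContDiff
open Set Filter Topology

noncomputable section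

namespace Vale.Agent.P354Z

open Vale.Agent.P354XG Vale.Agent.P354XD Vale.Agent.P354XR Vale.Agent.P354XI
open Vale.Agent.P354XE (Tw)
open Vale.Agent.P354XT (up dn)
open Vale.Agent.P354BF (De rp)
open Vale.Agent.P354YK (out oth)

/-! ### The model -/

/-- The slope h of v - t, half of the slope j of the angle, as functions of (M, a, r); far out
t = u - 4 M0^2 / r and the angle is the outgoing one. -/
def cut (M0 : ℝ) (p : ℝ × ℝ × ℝ) : ℝ := up (5 * M0) (6 * M0) p.2.2 * dn (3 / 2 * M0) (2 * M0) p.1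
def hs (M0 : ℝ) (p : ℝ × ℝ × ℝ) : ℝ := 1 + cut M0 p *
  (2 * (p.2.2 ^ 2 + p.2.1 ^ 2) / De p.1 p.2.1 p.2.2 - 4 * M0 ^ 2 / p.2.2 ^ 2 - 1)
def js (M0 : ℝ) (p : ℝ × ℝ × ℝ) : ℝ := cut M0 p * (p.2.1 / De p.1 p.2.1 p.2.2)

/-- The retarded time. -/
def uu (M0 : ℝ) (x : E6) : ℝ := x.1 + 4 * M0 ^ 2 / x.2.1

/-- The shell of spinors. -/
def An (x : E6) : Prop := 1 / 2 ≤ nq x ∧ nq x ≤ 3 / 2

/-- Open cones in r > 0. -/
structure Cone (O : Set E6) : Prop where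
  op : IsOpen O
  pos : ∀ x ∈ O, 0 < x.2.1 ∧ x.2.2 ≠ 0
  hom : ∀ x ∈ O, ∀ c : ℂ, c ≠ 0 → (x.1, x.2.1, c • x.2.2) ∈ O

section alg
variable {A : Type} [CommRing A] [Algebra ℂ A]

/-- The components of a field in the basis T R P Q H B of the chart kk K p. -/
def cm (K : Hp A) (p : Pm A) (D : Der A) : Fin 6 → A :=
  ![D (K.z 0) + D (K.z 1) * p.h1, D (K.z 1),
    K.Ni * (K.z 2 * D (K.z 3) - K.z 3 * D (K.z 2)) + D (K.z 1) * p.j1 * (ii A * K.kc.s),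
    K.Ni * (K.z 4 * D (K.z 5) - K.z 5 * D (K.z 4)) - D (K.z 1) * p.j1 * (ii A * K.kc.sb),
    K.Ni * (K.z 4 * D (K.z 2) + K.z 5 * D (K.z 3)) - D (K.z 1) * p.j1 * (ii A * K.kc.x),
    K.Ni * (K.z 2 * D (K.z 4) + K.z 3 * D (K.z 5)) + D (K.z 1) * p.j1 * (ii A * K.kc.x)]

/-- The frame, and the scalars. -/
def f4 (G : GHP A) : Fin 4 → Der A := ![G.th, G.tp, G.et, G.ep]
def sc (G : GHP A) : Fin 13 → A :=
  ![G.ka, G.si, G.rh, G.ta, G.ka', G.si', G.rh', G.ta', G.P0, G.P1, G.P2, G.P3, G.P4]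

/-- All data of G. -/
def dat (K : Hp A) (p : Pm A) (G : GHP A) : (Fin 4 × Fin 6) ⊕ Fin 13 → A :=
  Sum.elim (fun i => cm K p (f4 G i.1) i.2) (sc G)

/-- The letters T, R and the rotations, and the letters of the scale r. -/
def lt (K : Hp A) (p : Pm A) : Fin 5 → Der A := ![K.d 0, (kk K p).R, Om K 0, Om K 1, Om K 2]
def ll (K : Hp A) (p : Pm A) : Fin 5 → Der A :=
  ![K.z 1 • K.d 0, K.z 1 • (kk K p).R, Om K 0, Om K 1, Om K 2]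

end alg

/-- The powers of 1 / r in the layer near the initial slice. -/
def dm : (Fin 4 × Fin 6) ⊕ Fin 13 → ℕ :=
  Sum.elim (fun i => if i.2 = 1 ∨ (i.2 = 0 ∧ 2 ≤ i.1) then 1 else 2) fun i => if i < 8 then 2 else 3

section conc
variable (O : Set E6)

/-- Functions of r. -/
def rf (f : ℝ → ℝ) : Sm (on O) := gm (on O) fun p => (f p.2.2.1 : ℂ)

/-- The ingoing and the outgoing parameters. -/
def pI (M0 M a : ℝ) : Pm (Sm (on O)) :=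
  { pm (on O) (fun _ => M) fun _ => a with
    h1 := rf O fun r => hs M0 (M, a, r), j1 := rf O fun r => js M0 (M, a, r) }
def pO (M0 M a : ℝ) : Pm (Sm (on O)) :=
  { pm (on O) (fun _ => M) fun _ => a with h1 := rf O fun r => -(4 * M0 ^ 2 / r ^ 2), j1 := 0 }
def kI (M0 M a : ℝ) : KC (Sm (on O)) := kk (hp (on O)) (pI O M0 M a)
def kO (M0 M a : ℝ) : KC (Sm (on O)) := kk (hp (on O)) (pO O M0 M a)

/-- The geometry of half of the metric g. -/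
def ge (g : Tw) : Geo (Sm (on O)) := geo (on O) (1 / 2) fun _ => g

variable {O}

/-- The sum of the squares of the words of length at most n at the point x. -/
def q2 {ι : Type} [Fintype ι] (X : ι → Der (Sm (on O))) (x : E6) : ℕ → Sm (on O) → ℝ
  | 0, f => ‖fv f x‖ ^ 2
  | n + 1, f => q2 X x n f + ∑ a, q2 X x n (X a f)

/-- The real value. -/
def rv (f : Sm (on O)) (x : E6) : ℝ := (fv f x).re

/-- A real function on the base. -/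
structure Base (f : Sm (on O)) : Prop where
  re : cj f = f
  H : (hp (on O)).H f = 0

end conc

/-! ### The state -/

/-- The constants. C rho is the constant of the comparison on r ≤ rho, t = bt r is the bottom. -/
structure Cs where
  M : ℝ
  a : ℝ
  r1 : ℝ
  r0 : ℝ
  d : ℝ
  R1 : ℝ
  R2 : ℝ
  Rs : ℝ
  del : ℝ
  s0 : ℝ
  d0 : ℝ
  cw : ℝ
  c0 : ℝ
  t1 : ℝ
  B : ℝ
  N0 : ℕ
  L0 : ℕ
  K : ℕ
  C : ℝ → ℝ
  bt : ℝ → ℝ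

structure Cs.Ok (c : Cs) : Prop where
  a0 : c.a ≠ 0
  aM : |c.a| < c.M
  r1 : c.M - √(c.M ^ 2 - c.a ^ 2) < c.r1
  d : 0 < c.d
  r10 : c.r1 + c.d < c.r0
  r0 : c.M < c.r0
  rp : c.r0 + 3 * c.d < rp c.M c.a
  R1 : 10 * c.M + 10 ≤ c.R1
  R2 : 10 * c.R1 ≤ c.R2
  Rs : 10 * c.R2 ≤ c.Rs
  del : 0 < c.del ∧ c.del ≤ 1 / 10
  d0 : 0 < c.d0 ∧ c.d0 ≤ 1 / 100
  s0 : c.s0 = 7 / 5
  cw : 0 < c.cw ∧ c.cw ≤ 1
  c0 : 1 ≤ c.c0
  t1 : 2 ≤ c.t1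
  B : 1 ≤ c.B
  C : ∀ ρ, 1 ≤ c.C ρ
  bts : ContDiff ℝ ∞ c.bt
  btf : ∀ r, c.R1 + 3 ≤ r → c.bt r = -r - 4 * c.M ^ 2 / r
  btt : ∀ r, c.r1 ≤ r → c.bt r + c.del * r ≤ c.t1 - 2

/-- O1 is the near region with the transverse frame F1 and the lid function sig, O2 the far region
with the frame F2 along the outgoing rays and the lid function tau; Lv is the set of levels below
the lid, (M, a) the final parameters, e0 the size of the data. -/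
structure Est where
  O1 : Set E6
  O2 : Set E6
  g : Tw
  F1 : Fr (Sm (on O1))
  F2 : Fr (Sm (on O2))
  sig : Sm (on O1)
  tau : Sm (on O2)
  Lv : Set ℝ
  M : ℝ
  a : ℝ
  e0 : ℝ

namespace Est
variable (c : Cs) (E : Est)

def G1 : GHP (Sm (on E.O1)) := E.F1.ghp (ge E.O1 E.g)
def G2 : GHP (Sm (on E.O2)) := E.F2.ghp (ge E.O2 E.g)
def p1 : Pm (Sm (on E.O1)) := pI E.O1 c.M E.M E.a
def p2 : Pm (Sm (on E.O2)) := pO E.O2 c.M E.M E.a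
def K1 : KC (Sm (on E.O1)) := kI E.O1 c.M E.M E.a
def K2 : KC (Sm (on E.O2)) := kO E.O2 c.M E.M E.a

/-- The differences to Kerr. -/
def d1 (i : (Fin 4 × Fin 6) ⊕ Fin 13) : Sm (on E.O1) :=
  dat (hp _) (E.p1 c) E.G1 i - dat (hp _) (E.p1 c) (E.K1 c).kerr i
def d2 (i : (Fin 4 × Fin 6) ⊕ Fin 13) : Sm (on E.O2) :=
  dat (hp _) (E.p2 c) E.G2 i - dat (hp _) (E.p2 c) (out (E.K2 c)) i

/-- The squares of the jets of P0, P4 along the frame F1. -/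
def eta (n : ℕ) (x : E6) : ℝ := q2 (f4 E.G1) x n E.G1.P0 + q2 (f4 E.G1) x n E.G1.P4

/-- A bounds the data and the square root of f in the past of t + c0, on r ≤ rho + 1, with an
exponential memory. -/
def Past (f : E6 → ℝ) (ρ t A : ℝ) : Prop :=
  E.e0 ≤ A * 2 ^ t ∧ ∀ y ∈ E.O1, nq y = 1 → y.2.1 ≤ ρ + 1 → y.1 ≤ t + c.c0 →
    f y ≤ (A * 2 ^ (t - y.1)) ^ 2

/-- Q bounds the sum over the future slabs of the suprema of eta on r ≤ R1 + 4. -/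
def Tail (t Q : ℝ) : Prop :=
  ∃ n : ℕ → ℝ, (∀ j, 0 ≤ n j) ∧ (∀ k, ∑ j ∈ Finset.range k, n j ≤ Q) ∧
    ∀ y ∈ E.O1, nq y = 1 → y.2.1 ≤ c.R1 + 4 → ∀ j : ℕ, t - c.c0 + j ≤ y.1 →
      y.1 ≤ t - c.c0 + j + 1 → E.eta c.L0 y ≤ n j

/-- The region above the bottom, and its far part. -/
def Ab (x : E6) : Prop := c.bt x.2.1 ≤ x.1
def Fa (x : E6) : Prop := c.R1 + 3 ≤ x.2.1 ∧ 0 ≤ uu c.M x + x.2.1

/-- The time T of the level s. -/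
structure Top (s T : ℝ) : Prop where
  box : ∀ x : E6, x.2.2 ≠ 0 → Ab c x → x.1 ≤ T + c.c0 + 5 → c.r0 ≤ x.2.1 → x.2.1 ≤ c.R2 →
    x ∈ E.O1 ∧ rv E.sig x < s
  lens : ∀ x ∈ E.O1, rv E.sig x < s → T ≤ x.1 → x.2.1 ≤ c.Rs - 2 ∧ x.1 ≤ T + c.B

/-- The shape of the regions. -/
structure Shape : Prop where
  co1 : Cone E.O1
  co2 : Cone E.O2
  rad1 : ∀ x ∈ E.O1, c.r1 ≤ x.2.1 ∧ x.2.1 ≤ c.Rs + 1 ∧ -c.B ≤ x.1
  rad2 : ∀ x ∈ E.O2, c.R1 + 2 ≤ x.2.1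
  lvO : IsOpen E.Lv
  lvL : IsLowerSet E.Lv
  b1 : Base E.sig
  b2 : Base E.tau
  lv1 : ∀ x ∈ E.O1, rv E.sig x ∈ E.Lv
  lv2 : ∀ x ∈ E.O2, rv E.tau x ∈ E.Lv
  cp1 : ∀ s ∈ E.Lv, IsCompact
    {x | x ∈ E.O1 ∧ An x ∧ rv E.sig x ≤ s ∧ Ab c x ∧ x.2.1 ≤ c.Rs - 1}
  cp2 : ∀ s ∈ E.Lv, IsCompact {x | x ∈ E.O2 ∧ An x ∧ rv E.tau x ≤ s ∧ Fa c x}
  up : ∀ x ∈ E.O1, Fa c x → x ∈ E.O2 ∧ rv E.sig x = rv E.tau x
  low : ∀ x ∈ E.O2, Fa c x → x.2.1 ≤ c.Rs - 1 → x ∈ E.O1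
  top : ∀ s ∈ E.Lv, ∃ T, E.Top c s T
  sg : ∀ x ∈ E.O1, 0 ≤ rv (E.G1.th E.sig) x ∧ 0 ≤ rv (E.G1.tp E.sig) x ∧
    ‖fv (E.G1.et E.sig) x‖ ^ 2 ≤ rv (E.G1.th E.sig) x * rv (E.G1.tp E.sig) x
  taR : ∀ x ∈ E.O2, Fa c x → 1 ≤ rv ((E.K2 c).R E.tau) x ∧ rv ((E.K2 c).R E.tau) x ≤ 9 / 5
  taT : ∀ x ∈ E.O2, Fa c x →
    19 / 20 + c.cw * x.2.1 * (|uu c.M x| + c.R1) ^ (-1 - c.d0) ≤ rv ((E.K2 c).T E.tau) x ∧
    rv ((E.K2 c).T E.tau) x ≤ 2 + x.2.1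
  taO : ∀ x ∈ E.O2, Fa c x → ∀ j, ‖fv (Om (hp _) j E.tau) x‖ ≤ x.2.1 / 100

/-- The equations and the gauge. -/
structure Eqs : Prop where
  par : |E.a| < E.M ∧ E.M ≤ 5 / 4 * c.M
  v1 : ∀ x ∈ E.O1, VacAt E.g (pj x)
  v2 : ∀ x ∈ E.O2, VacAt E.g (pj x)
  w1 : E.F1.WN (ge E.O1 E.g)
  w2 : E.F2.WN (ge E.O2 E.g)
  P1 : E.G1.P1 = 0
  P3 : E.G1.P3 = 0
  unit : IsUnit E.G1.P2
  th : E.G2.th = oth (E.K2 c)
  ka : E.G2.ka = 0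
  ta : E.G2.ta' = (E.K2 c).ta2
  lT : 2 * (ge E.O2 E.g).dot E.F2.l ((hp _).prj ((hp _).d 0)) = -(hp _).N

/-- The comparison with Kerr. -/
structure Near : Prop where
  e0 : 0 ≤ E.e0
  par : ∀ Q, E.Tail c (c.bt c.R1) Q → |E.M - c.M| + |E.a - c.a| ≤ c.C c.R1 * (E.e0 + Q)
  n1 : ∀ ρ, c.R1 + 3 ≤ ρ → ∀ x ∈ E.O1, An x → x.2.1 ≤ ρ → ∀ A Q, E.Past c (E.eta c.L0) ρ x.1 A →
    E.Tail c x.1 Q → ∀ i, q2 (lt (hp _) (E.p1 c)) x c.N0 (E.d1 c i) ≤ (c.C ρ * (A + Q)) ^ 2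
  n2 : ∀ ρ, c.R1 + 3 ≤ ρ → ∀ x ∈ E.O1, An x → x.2.1 ≤ ρ → Fa c x → ∀ A Q,
    E.Past c (E.eta c.L0) ρ x.1 A → E.Tail c x.1 Q →
    ∀ i, q2 (lt (hp _) (E.p2 c)) x c.N0 (E.d2 c i) ≤ (c.C ρ * (A + Q)) ^ 2
  ini : ∀ x ∈ E.O1, An x → x.1 ≤ c.t1 + c.B + 10 → E.eta (c.K + 2) x ≤ E.e0 ^ 2
  lay : ∀ x ∈ E.O2, An x → 4 * c.R1 ≤ x.2.1 → 0 ≤ uu c.M x + x.2.1 →
    uu c.M x + x.2.1 ≤ c.del * x.2.1 → ∀ i, q2 (ll (hp _) (E.p2 c)) x (c.K + 2) (E.d2 c i) ≤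
      (c.B * (E.e0 + |E.M - c.M| + |E.a - c.a|) / x.2.1 ^ dm i) ^ 2

structure Is : Prop where
  shape : E.Shape c
  eqs : E.Eqs c
  near : E.Near c

/-- The decay of the jets of order n with the constant eps and the rate s. -/
def Dec (n : ℕ) (s ε : ℝ) : Prop :=
  ∀ x ∈ E.O1, nq x = 1 → E.eta n x ≤ (ε * (1 + |x.1|) ^ (-s)) ^ 2

end Est

end Vale.Agent.P354Z
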