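import Vale.Agent.P354Z.Est
import Vale.Agent.P354YA.Inst

/-!
The four blocks of the a priori estimate: CHART, CORE, BACK, OUT. Exact statements.
-/

open scoped ContDiff
open Set Filter Topology

noncomputable section

namespace Vale.Agent.P354Z

open Vale.Agent.P354n (R4)
open Vale.Agent.P354XG (E6)
open Vale.Agent.P354XD (pj)
open Vale.Agent.P354XE (Tw Bd gin rd ka)
open Vale.Agent.P354XV (Bnd)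
open Vale.Agent.P354YA (St2 Boot Zs nat W0 Ok2 Mar End0)

/-! ### The constants, in the order in which they are chosen -/

structure Z1 where
  M : ℝ
  a : ℝ
  r1 : ℝ
  θ : ℝ
  θ1 : ℝ
  del : ℝ
  R1 : ℝ
  κ : ℝ

structure C1 where
  r1 : ℝ
  r0 : ℝ
  d : ℝ
  del : ℝ
  t1 : ℝ
  bt : ℝ → ℝ

structure C2 where
  N0 : ℕ
  L0 : ℕ
  c0 : ℝ
  C : ℝ → ℝ

structure C3 where
  K : ℕ
  R2 : ℝ
  Rs : ℝ

structure C4 where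
  B : ℝ
  cw : ℝ

def cs (z : Z1) (a : C1) (b : C2) (c : C3) (d : C4) : Cs where
  M := z.M
  a := z.a
  r1 := a.r1
  r0 := a.r0
  d := a.d
  R1 := z.R1
  R2 := c.R2
  Rs := c.Rs
  del := a.del
  s0 := 7 / 5
  d0 := 1 / 100
  cw := d.cw
  c0 := b.c0
  t1 := a.t1
  B := d.B
  N0 := b.N0
  L0 := b.L0
  K := c.K
  C := b.C
  bt := a.bt

namespace Z1
variable (z : Z1)

/-- The scaffold with the radii Rs and Rb. -/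
def pm (Rs Rb : ℝ) : P354YT.Pm := ⟨z.M, z.a, z.r1, z.R1, 1, Rs, 101 / 100, fun _ => 0, Rb, z.del⟩

structure Ok : Prop where
  a0 : z.a ≠ 0
  θ : 0 < z.θ ∧ z.θ ≤ z.θ1
  ok : ∀ Rs ≥ z.R1 + 1, ∀ Rb ≥ z.R1 + 2, Ok2 (z.pm Rs Rb) ∧ Mar (z.pm Rs Rb) z.κ ∧
    2 * z.θ1 ≤ Real.exp (ka z.M z.a * (z.pm Rs Rb).be 0)

variable (Rs Rb : ℝ)

/-- The good metrics on the collar, the states, the assumption. -/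
def Cg (m : ℕ) (d : ℝ) (gc : Tw) : Prop :=
  P354YI.Cg (z.pm Rs Rb) (nat (z.pm Rs Rb) z.κ) 3 (W0 (z.pm Rs Rb)) z.θ z.θ1 m d gc
def St (gc : Tw) (V : ℝ) (g : Tw) : Prop := St2 (nat (z.pm Rs Rb) z.κ) (z.pm Rs Rb).sc gc V g
def Bo (k L : ℕ) (e1 e V : ℝ) (g : Tw) : Prop :=
  Boot z.M z.a (z.pm Rs Rb).sc Rs (fun _ => 0) k L (7 / 5) e1 e V g

/-- The points of the assumption below the levels in Lv. -/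
def Zv (Lv : Set ℝ) : Set E6 := {x | x ∈ Zs (z.pm Rs Rb).sc Rs ∧ (z.pm Rs Rb).tau (pj x) ∈ Lv}

end Z1

/-- P holds for all admissible parameters with a large radius R1. -/
def Lg (P : Z1 → Prop) : Prop :=
  ∀ M a r1 θ θ1 del, ∃ Rm, ∀ R1 ≥ Rm, ∀ κ, Z1.Ok ⟨M, a, r1, θ, θ1, del, R1, κ⟩ →
    P ⟨M, a, r1, θ, θ1, del, R1, κ⟩

/-- The transfer of the bounds for eta between the scaffold and the state; e is the size in the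
assumption and d the size of the data. -/
structure Tr (z : Z1) (Rb : ℝ) (c : Cs) (L : ℕ) (g : Tw) (E : Est) (Cl e d : ℝ) : Prop where
  e0 : E.e0 ≤ Cl * d
  dec : E.Dec L (7 / 5) (Cl * e)
  dec' : ∀ η ≥ 0, E.Dec L (7 / 5) η → ∀ x ∈ z.Zv c.Rs Rb E.Lv,
    P354YA.eta z.M z.a L g x ≤ (Cl * (η + d) * (1 + |x.1|) ^ (-(7 / 5) : ℝ)) ^ 2

/-- The types of the link (z, Rb, c, gc, g, E, kappa, Cl, e) and of the far table (c, E, order, size). -/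
abbrev Link : Type := Z1 → ℝ → Cs → Tw → Tw → Est → ℝ → ℝ → ℝ → Prop
abbrev Table : Type := Cs → Est → ℕ → ℝ → Prop

variable (Lk : Link) (FT : Table)

/-- The far table is monotone. -/
def MONO : Prop := ∀ c E n n' η η', n' ≤ n → η ≤ η' → FT c E n η → FT c E n' η'

/-- CHART: the state of the estimates. -/
def CHART : Prop := Lg fun z => ∃ a : C1, ∀ N0, ∃ b : C2, b.N0 = N0 ∧ ∃ k ≥ 2, ∃ Lc Rc,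
  ∀ L ≥ Lc, ∀ c : C3, Rc ≤ c.R2 → 10 * c.R2 ≤ c.Rs → ∀ κ > 0, ∃ d : C4, (cs z a b c d).Ok ∧
    ∃ R0, ∀ Rb ≥ R0, ∃ E1 > 0, ∃ Cl ≥ 1, ∃ m0, ∀ e1 ∈ Ioc 0 E1, ∀ e ∈ Ioc 0 E1, ∀ m ≥ m0,
      ∀ dd ∈ Ioc 0 e, ∀ gc, z.Cg c.Rs Rb m dd gc → ∀ Lv g, IsOpen Lv → IsLowerSet Lv →
        Lv.Nonempty → (∀ V ∈ Lv, z.St c.Rs Rb gc V g ∧ z.Bo c.Rs Rb k L e1 e V g) →
        ∃ E : Est, E.Is (cs z a b c d) ∧ E.Lv = Lv ∧ Tr z Rb (cs z a b c d) L g E Cl e dd ∧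
          Lk z Rb (cs z a b c d) gc g E κ Cl e

/-- CORE: the estimates. -/
def CORE : Prop := ∀ (z : Z1) (a : C1) (n : ℕ), ∃ N1, ∀ b : C2, N1 ≤ b.N0 → ∃ Lm, ∀ L ≥ Lm,
  ∃ K Rm, ∀ R2 ≥ Rm, ∀ Rs d, (cs z a b ⟨K, R2, Rs⟩ d).Ok → ∃ ε0 > 0, ∃ Cc ≥ 0,
    ∀ (E : Est) (ε : ℝ), E.Is (cs z a b ⟨K, R2, Rs⟩ d) → ε ∈ Ioc 0 ε0 → E.e0 ≤ ε →
      E.Dec L (7 / 5) ε → E.Dec L (7 / 5) (Cc * (E.e0 + ε ^ 2)) ∧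
        FT (cs z a b ⟨K, R2, Rs⟩ d) E n (Cc * (E.e0 + ε ^ 2))

/-- What BACK and OUT use of the state. -/
structure Inp (z : Z1) (Rb : ℝ) (c : Cs) (L n : ℕ) (gc g : Tw) (E : Est) (κ Cl e : ℝ) : Prop where
  is : E.Is c
  e0 : E.e0 ≤ Cl * e
  dec : E.Dec L (7 / 5) (Cl * e)
  far : FT c E n (Cl * e)
  lk : Lk z Rb c gc g E κ Cl e

/-- BACK: the first part of the assumption is improved, and the bounds of CONT hold. -/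
def BACK : Prop := ∀ kc : ℕ, Lg fun z => ∃ n Nb k0, ∀ (a : C1) (b : C2), Nb ≤ b.N0 → ∀ k ≥ k0,
  ∃ Lb Rc, ∀ L ≥ Lb, ∀ c : C3, Rc ≤ c.R2 → ∃ κ0 > 0, ∀ κ ∈ Ioc 0 κ0, ∀ d, (cs z a b c d).Ok →
    ∃ R0, ∀ Rb ≥ R0, ∃ E1 > 0, ∀ Cl ≥ 1, ∀ e1 ∈ Ioc 0 E1, ∃ e2 > 0, ∃ m0, ∀ e ∈ Ioc 0 e2,
      ∀ m ≥ m0, ∀ dd ∈ Ioc 0 e, ∀ gc, z.Cg c.Rs Rb m dd gc → ∀ V g E, z.St c.Rs Rb gc V g →
        z.Bo c.Rs Rb k L e1 e V g → E.Lv = Iio V →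
        Inp Lk FT z Rb (cs z a b c d) L n gc g E κ Cl e →
        (∀ x ∈ z.Zv c.Rs Rb (Iio V), Bd k (g - gin z.M z.a) (pj x) (e1 / 2)) ∧
          Bnd kc (nat (z.pm c.Rs Rb) z.κ) (z.pm c.Rs Rb).sc V g

/-- OUT: the end with the estimates. -/
def OUT : Prop := ∃ s > 1, ∃ δ > 0, Lg fun z => ∀ a : C1, ∃ R ≥ z.R1, ∀ rE > z.r1, ∀ N : ℕ,
  ∀ ε > 0, ∃ n Nb, ∀ b : C2, Nb ≤ b.N0 → ∃ Lb Rc, ∀ L ≥ Lb, ∀ c : C3, Rc ≤ c.R2 → ∃ κ0 > 0,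
    ∀ κ ∈ Ioc 0 κ0, ∀ d, (cs z a b c d).Ok → ∃ R0, ∀ Rb ≥ R0, ∀ Cl ≥ 1, ∃ e2 > 0, ∃ m0,
      ∀ e ∈ Ioc 0 e2, ∀ m ≥ m0, ∀ dd ∈ Ioc 0 e, ∀ gc, z.Cg c.Rs Rb m dd gc → ∀ g E,
        (∀ V, z.St c.Rs Rb gc V g) → E.Lv = univ →
        Inp Lk FT z Rb (cs z a b c d) L n gc g E κ Cl e →
        ∃ W g' Y, End0 z.M z.a rE z.θ z.θ1 R s δ ε N gc W g' Y

/-- EXZ: there are admissible parameters. -/
def EXZ : Prop := ∀ M a r1 θ θ1 del Rm : ℝ, a ≠ 0 → |a| < M →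
  r1 ∈ Ioo (P354I.rm M a) (P354I.rp M a) → 0 < θ → θ ≤ θ1 → 0 < del → del ≤ 1 / 10 →
    ∃ R1 ≥ Rm, ∃ κ, Z1.Ok ⟨M, a, r1, θ, θ1, del, R1, κ⟩

end Vale.Agent.P354Z
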