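import Vale.Agent.P354YA.Exz
import Vale.Agent.P354XD.Sm
import Vale.Agent.P354XV.Loc

/-!
What the assumption and the data on the collar give on the whole end below the lid.
-/

open Set Filter Topology

noncomputable section

namespace Vale.Agent.P354Z

open Vale.Agent.P354n (R4)
open Vale.Agent.P354XG (E6)
open Vale.Agent.P354XD (pj nq VacAt)
open Vale.Agent.P354XE (Tw Bd gin rd ka En)
open Vale.Agent.P354XR (rd_pj)
open Vale.Agent.P354YA (KU eta Ok2 ne_of_nq tb_be tb_top)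

/-- The hypotheses of CHART on the metric. -/
structure Sts (z : Z1) (Rs Rb : ℝ) (k L m : ℕ) (e1 e dd : ℝ) (gc : Tw) (Lv : Set ℝ) (g : Tw) :
    Prop where
  ok : (z.pm Rs Rb).Ok
  nn : 0 ≤ dd
  cg : z.Cg Rs Rb m dd gc
  op : IsOpen Lv
  st : ∀ V ∈ Lv, z.St Rs Rb gc V g ∧ z.Bo Rs Rb k L e1 e V g

/-- The points of the end below the lid. -/
def Z1.Pt (z : Z1) (Rs Rb : ℝ) (Lv : Set ℝ) (p : R4) : Prop :=
  p ∈ En z.M z.a z.r1 z.θ ∧ (z.pm Rs Rb).tau p ∈ Lv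

namespace Sts
variable {z : Z1} {Rs Rb e1 e dd : ℝ} {k L m : ℕ} {gc g : Tw} {Lv : Set ℝ} {p : R4} {x : E6}
  (h : Sts z Rs Rb k L m e1 e dd gc Lv g)
include h

theorem ev (hp : z.Pt Rs Rb Lv p) (h0 : (z.pm Rs Rb).psi p < 0) : g =ᶠ[𝓝 p] gc := by
  have t := (h.st _ hp.2).1
  filter_upwards [(h.ok.psi_cd (h.ok.pos hp.1.1)).continuousAt.eventually_lt continuousAt_const h0]
    with q hq
  by_cases o : q ∈ (z.pm Rs Rb).O
  exacts [t.1.col ⟨o, hq⟩, t.2 o]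

theorem bd0 (hp : z.Pt Rs Rb Lv p) (h0 : (z.pm Rs Rb).psi p < 0) :
    Bd m (g - gin z.M z.a) p dd := fun j hj v w => by
  have e : (fun x => (g - gin z.M z.a) x v w) =ᶠ[𝓝 p] fun x => (gc - gin z.M z.a) x v w :=
    (h.ev hp h0).mono fun q k => by simp only [Pi.sub_apply, k]
  rw [(e.iteratedFDeriv ℝ j).eq_of_nhds]
  refine (h.cg.sml p ⟨hp.1, h0.le.trans zero_le_one⟩ j hj v w).trans ?_
  have := h.nn
  have := one_le_pow₀ (n := j + 1) (le_add_of_nonneg_right (h.ok.pos hp.1.1).le : 1 ≤ 1 + rd p)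
  gcongr
  exact div_le_self h.nn this

theorem up (hp : z.Pt Rs Rb Lv p) : ∃ V ∈ Lv, (z.pm Rs Rb).tau p < V :=
  let ⟨V, k⟩ := (((h.op.eventually_mem hp.2).filter_mono nhdsWithin_le_nhds).and
    (self_mem_nhdsWithin (s := Ioi _))).exists
  ⟨V, k⟩

theorem lv (hp : z.Pt Rs Rb Lv p) : ∃ D, P354XV.Lv g D ∧ p ∈ D := by
  rcases lt_or_ge ((z.pm Rs Rb).psi p) 0 with h0 | h0
  · obtain ⟨W, l, s⟩ := h.cg.lv
    obtain ⟨O, hO, oO, pO⟩ := mem_nhds_iff.1 (inter_mem (h.ev hp h0)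
      (l.isOpen.mem_nhds (s ⟨hp.1, h0.le.trans zero_le_one⟩)))
    exact ⟨O, (l.mono oO fun q hq => (hO hq).2).congr fun q hq => (hO hq).1, pO⟩
  · obtain ⟨V, hV, k⟩ := h.up hp
    exact ⟨_, (h.st V hV).1.1.lv, ⟨hp.1.1, by linarith⟩, Or.inl k⟩

theorem vac (hp : z.Pt Rs Rb Lv p) : VacAt g p :=
  let ⟨D, l, k⟩ := h.lv hp
  ⟨D, l.isOpen, k, l.met, l.vac⟩

variable (x1 : nq x = 1) (x2 : 0 < x.2.1) (x3 : x.2.1 ≤ Rs) (hp : z.Pt Rs Rb Lv (pj x))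
include x1 x2 x3 hp

theorem bo (h0 : -1 ≤ (z.pm Rs Rb).psi (pj x)) : P354YA.Bo z.M z.a k L (7 / 5) e1 e g x :=
  let ⟨V, hV, k⟩ := h.up hp
  (h.st V hV).2 x ⟨x1, x2, x3, ⟨hp.1.1, by linarith⟩, h0⟩ ((add_zero _).trans_lt k)

theorem bd (hk : k ≤ m) : Bd k (g - gin z.M z.a) (pj x) (max e1 dd) := fun j hj v w => by
  rcases lt_or_ge ((z.pm Rs Rb).psi (pj x)) 0 with h0 | h0
  · exact (h.bd0 hp h0 j (hj.trans hk) v w).trans (by gcongr; exact le_max_right _ _)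
  · exact ((h.bo x1 x2 x3 hp (by linarith)).1 j hj v w).trans (by gcongr; exact le_max_left _ _)

end Sts

/-- The collar is high. -/
theorem be_big {z : Z1} (o : z.Ok) {Rs : ℝ} (hs : z.R1 + 1 ≤ Rs) (T : ℝ) :
    ∀ᶠ Rb in atTop, ∀ r, T ≤ (z.pm Rs Rb).be r := by
  have s := (o.ok Rs hs _ le_rfl).1
  filter_upwards [(tb_top s.1.sub).eventually_ge_atTop T, eventually_ge_atTop (z.R1 + 2)]
    with Rb k1 k2 r
  have q := (o.ok Rs hs Rb k2).1.1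
  refine (k1.trans (q.be_ge (P354YT.rp_lt q.sub q.Rb))).trans ?_
  rcases le_total r Rb with k | k
  exacts [(q.be_near k).ge, q.be_mono k]

/-- **The bounds on the scaffold.** -/
theorem scf {z : Z1} (o : z.Ok) {Rs : ℝ} (hs : z.R1 + 1 ≤ Rs) (L n : ℕ) (T : ℝ) :
    ∃ E1 > 0, ∀ᶠ Rb in atTop, ∃ C ≥ 1, ∃ m0, ∀ k ≥ 2, ∀ m ≥ m0, ∀ e1 ≤ E1, ∀ e ≤ E1, ∀ dd ≤ e,
      ∀ gc Lv g, Sts z Rs Rb k L m e1 e dd gc Lv g → ∀ x, nq x = 1 → 0 < x.2.1 → x.2.1 ≤ Rs →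
        z.Pt Rs Rb Lv (pj x) → x ∈ KU z.M z.a g ∧
          eta z.M z.a L g x ≤ (C * e * (1 + |x.1|) ^ (-(7 / 5) : ℝ)) ^ 2 ∧
          (x.1 ≤ T → eta z.M z.a n g x ≤ (C * dd) ^ 2) := by
  have s := (o.ok Rs hs _ le_rfl).1.1
  obtain ⟨c1, p1, h1⟩ := P354XD.smv z.M z.a z.r1 Rs s.sub s.r1.1
  obtain ⟨m2, C2, c2, p2, h2⟩ := P354XD.smd z.M z.a z.r1 Rs (max L n) s.sub s.r1.1
  refine ⟨min c1 c2, lt_min p1 p2, ?_⟩
  filter_upwards [be_big o hs T, eventually_ge_atTop (z.R1 + 2)] with Rb b1 b2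
  have q := (o.ok Rs hs Rb b2).1.1
  have k0 : 0 < ka z.M z.a := P354YR.ka_pos s.sub
  obtain ⟨S, hS⟩ : ∃ S, S = |Real.log z.θ / ka z.M z.a| + |(z.pm Rs Rb).be Rs + 2 * (z.del * Rs)| :=
    ⟨_, rfl⟩
  have S0 : 0 ≤ S := by rw [hS]; positivity
  have S1 : 1 ≤ (1 + S) ^ (7 / 5 : ℝ) := Real.one_le_rpow (by linarith) (by norm_num)
  refine ⟨(|C2| + 1) * (1 + S) ^ (7 / 5 : ℝ), one_le_mul_of_one_le_of_one_le
    (by linarith [abs_nonneg C2]) S1, max m2 2, fun k hk m hm e1 a1 e a2 dd a3 gc Lv g h x x1 x2 x3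
      hp => ?_⟩
  simp only [ge_iff_le, max_le_iff, le_min_iff] at hm a1 a2
  have r := rd_pj x2 (ne_of_nq x1)
  have r1 : z.r1 ≤ x.2.1 := r ▸ hp.1.1.le
  have d0 := h.nn
  have e0 := d0.trans a3
  have lo : (z.pm Rs Rb).psi (pj x) < 0 → eta z.M z.a (max L n) g x ≤ ((|C2| + 1) * dd) ^ 2 :=
    fun h0 => (h2 g x dd x1 r1 x3 (h.vac hp) (a3.trans a2.2) fun j hj =>
      h.bd0 hp h0 j (hj.trans hm.1)).trans (by
        rw [mul_pow, mul_pow, ← sq_abs C2]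
        gcongr
        linarith)
  have ps := q.psi_lt (p := pj x) (r ▸ x2) 0
  rw [r, zero_add] at ps
  refine ⟨h1 g x x1 r1 x3 (h.vac hp) fun j hj v w => ?_, ?_, fun hT => ?_⟩
  · rcases lt_or_ge ((z.pm Rs Rb).psi (pj x)) 0 with h0 | h0
    · exact (h.bd0 hp h0 j (hj.trans hm.2) v w).trans (by gcongr; exact a3.trans a2.1)
    · exact ((h.bo x1 x2 x3 hp (by linarith)).1 j (hj.trans hk) v w).trans (by gcongr; exact a1.1)
  · have w : 0 < 1 + |x.1| := by positivity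
    rcases lt_or_ge ((z.pm Rs Rb).psi (pj x)) 0 with h0 | h0
    · have t1 : Real.log z.θ / ka z.M z.a ≤ x.1 := by
        rw [div_le_iff₀' k0, Real.log_le_iff_le_exp o.θ.1]
        exact hp.1.2.1
      have t2 : x.1 ≤ (z.pm Rs Rb).be Rs + 2 * (z.del * Rs) :=
        (ps.1 h0).le.trans (add_le_add (q.be_mono x3) (by
          have : 0 < z.del := q.del.1
          show 2 * (z.del * _) ≤ _
          gcongr))
      have t3 : |x.1| ≤ S := hS ▸ abs_le.2 ⟨by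
        linarith [neg_abs_le (Real.log z.θ / ka z.M z.a),
          abs_nonneg ((z.pm Rs Rb).be Rs + 2 * (z.del * Rs))], by
        linarith [le_abs_self ((z.pm Rs Rb).be Rs + 2 * (z.del * Rs)),
          abs_nonneg (Real.log z.θ / ka z.M z.a)]⟩
      have t4 : 1 ≤ (1 + S) ^ (7 / 5 : ℝ) * (1 + |x.1|) ^ (-(7 / 5) : ℝ) := by
        rw [Real.rpow_neg w.le, ← div_eq_mul_inv, one_le_div (by positivity)]
        gcongr
      refine (P354YA.eta_mono (le_max_left _ _) g x).trans ((lo h0).trans ?_)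
      refine pow_le_pow_left₀ (by positivity) ?_ 2
      calc (|C2| + 1) * dd ≤ (|C2| + 1) * e * ((1 + S) ^ (7 / 5 : ℝ) *
          (1 + |x.1|) ^ (-(7 / 5) : ℝ)) :=
            le_trans (by gcongr) (le_mul_of_one_le_right (by positivity) t4)
        _ = _ := by ring
    · refine (h.bo x1 x2 x3 hp (by linarith)).2.trans ?_
      gcongr
      exact le_mul_of_one_le_left e0 (one_le_mul_of_one_le_of_one_le
        (by linarith [abs_nonneg C2]) S1)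
  · have : 0 < (z.pm Rs Rb).del * x.2.1 := mul_pos q.del.1 x2
    refine (P354YA.eta_mono (le_max_right _ _) g x).trans ((lo (ps.2 ?_)).trans ?_)
    · have := b1 x.2.1
      show x.1 < _
      linarith
    · gcongr
      exact le_mul_of_one_le_right (by positivity) S1

end Vale.Agent.P354Z
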