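import Vale.Agent.P354Z.Cma
import Vale.Agent.P354XD.VD
import Vale.Agent.P354XO.Cht
import Vale.Agent.P354BO.Outb
import Vale.Agent.P354CQ.Defs

/-!
The frame of the state and the image of the frame of the scaffold are close at one point.
-/

open scoped ContDiff
open Set Filter Topology

noncomputable section

namespace Vale.Agent.P354Z

open Vale.Agent.P354n (R4)
open Vale.Agent.P354RC (cv bs)
open Vale.Agent.P354XG Vale.Agent.P354XD Vale.Agent.P354XR Vale.Agent.P354XI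
open Vale.Agent.P354XE (Tw gin)
open Vale.Agent.P354XO (Cht b4 dn4 iv_s4 iv_e4 iv_vac)
open Vale.Agent.P354YA
open Vale.Agent.P354YO (sh IsTh)
open Vale.Agent.P354BO (kS lsh U0 U0_cone pe)
open Vale.Agent.P354CV (cone_hp cone_pos fv_rs fv_rf)
open Vale.Agent.P354CQ (s6)

/-- The values of the transverse frame. -/
def vT (M a : ℝ) (p : Tw × E6) : Fr ℂ := (vF M a p).full (S := pt (vg p)) opsC (vR p)

theorem Rf.fr4 {J : Type} {G : Filter (J × E6)} [Loc G] {F : Fr (Sm G)} {f : J × E6 → Fr ℂ}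
    (r : Rf F f) (b d : Fin 4) : Rs (fr4 F b d) fun p => fr4 (f p) b d := by
  fin_cases b
  exacts [r.l d, r.n d, r.m d, r.mb d]

theorem ft_lim (M a r1 r2 : ℝ) (hM : M ≠ 0) (h1 : 0 < r1) (b d : Fin 4) :
    Tendsto (fun j : Tw × E6 × ℝ => fr4 (vT M a (j.1, j.2.1)) b d - fr4 (vF M a (j.1, j.2.1)) b d)
      (fl M a r1 r2 2) (𝓝 0) := by
  let := P354MG.Gr.triv (fl M a r1 r2 2)
  have r : Reg (fl M a r1 r2 2) (fun j => {j.2.1}) (fun _ => M) fun _ => a :=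
    Eventually.of_forall fun k θ => ⟨_, lt_min (lt_min (abs_pos.2 hM) h1) (by norm_num), _,
      (fl_hy 2).mono fun j h x hx => hx ▸ h.rg⟩
  have hv : ∀ᶠ j in fl M a r1 r2 2, ∀ x ∈ ({j.2.1} : Set E6), VacAt j.1 (pj x) :=
    (fl_hy 2).mono fun j h x hx => hx ▸ h.1
  have s : P354MG.Sml (fl M a r1 r2 2) fun _ j => |j.2.2| :=
    Eventually.of_forall fun k θ => fl_lim 2
  obtain ⟨o, c⟩ := r.near0 (g := fun j => j.1) hv wgt_d s (Eventually.of_forall fun k θ =>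
    ⟨1, zero_le_one, (fl_hy 2).mono fun j h x hx => hx ▸ h.bd le_rfl⟩)
  have u := (okT_iff (r.pos.and (r.vac hv))).1 o
  have e := ((Rf.fr4 (fT_rf u) b d).sub (Rf.fr4 (vals (M := M) (a := a) (k0_of u)).2.2 b d)).on
  have k : P354XD.Sml (fr4 (fT (nb (fl M a r1 r2 2) fun j => {j.2.1}) M a fun j => j.1) b d -
      fr4 (fK _ M a) b d) := sml_gr s (by
    fin_cases b
    exacts [(c.l d).2, (c.n d).2, (c.m d).2, (c.mb d).2])
  refine Metric.tendsto_nhds.2 fun ε hε => ?_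
  filter_upwards [e, k (ε / 2) (half_pos hε)] with j e k
  rw [dist_zero_right]
  exact ((congrArg norm (e _ rfl)).symm.trans_le (k _ rfl)).trans_lt (half_lt_self hε)

theorem lsh_s6 (A B : ℝ → ℝ) (x : E6) : lsh A B x = s6 A B x := by
  simp only [lsh, s6, pe, Complex.ofReal_neg, Complex.ofReal_one]
  congr 5 <;> ring

/-- The chart α, the metric g of the scaffold and the frame F in the new chart. -/
structure Gl (M a : ℝ) (U U1 O : Set E6) (α : E6 → E6) (g : Tw) (F : Fr (Sm (on O))) : Prop where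
  h : Cht U α
  s1 : U1 ⊆ U
  s2 : O ⊆ α '' U1
  o1 : IsOpen U1
  co : Cone O
  ku : ∀ x ∈ U1, x ∈ KU M a g
  wn : F.WN (ge O (P354XE.pb (b4 U α) g))

namespace Gl
variable {M a : ℝ} {U U1 O : Set E6} {α : E6 → E6} {g : Tw} {F : Fr (Sm (on O))}
  (G : Gl M a U U1 O α g F) {x : E6} {A B : ℝ → ℝ}

/-- The image of the frame of the scaffold. -/
def F0 : Fr (Sm (on O)) := (G.h.sq G.s1 G.s2).fr (fT (on U1) M a fun _ => g)

include G

theorem ev : ∀ᶠ p in on U1, p.2 ∈ KU M a g := on_of G.o1 G.ku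
theorem vac : ∀ᶠ p in on U1, VacAt g (pj p.2) := (k0_of (g := fun _ => g) G.ev).mono fun _ k => k.2
theorem pos : Pos (on U1) := (k0_of (g := fun _ => g) G.ev).mono fun _ k => k.1

theorem is : (ge O (P354XE.pb (b4 U α) g)).Is :=
  geo_is (cone_pos G.co).off _ (iv_vac (O := fun _ => U) (a := fun p => α p.2) (g := fun _ => g)
    (.of_forall fun _ => G.h) (.of_forall fun _ => G.s1) (.of_forall fun _ => G.s2) G.vac)

theorem wn0 : G.F0.WN (ge O (P354XE.pb (b4 U α) g)) :=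
  G.h.wn G.s1 G.s2 G.vac _ (fT_wn (g := fun _ => g) G.ev).1

theorem hom : GHP.Hom (gT (on U1) M a fun _ => g) (G.F0.ghp (ge O (P354XE.pb (b4 U α) g)))
    (G.h.sq G.s1 G.s2).pb :=
  have h1 : ∀ᶠ _ : Unit in ⊤, Cht U α := .of_forall fun _ => G.h
  have h2 : ∀ᶠ _ : Unit in ⊤, U1 ⊆ U := .of_forall fun _ => G.s1
  have h3 : ∀ᶠ _ : Unit in ⊤, O ⊆ α '' U1 := .of_forall fun _ => G.s2
  (G.h.sq G.s1 G.s2).geo_hom (b4 := fun _ => b4 U α) (g := fun _ => g)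
    (iv_s4 (O := fun _ => U) (a := fun p => α p.2) h1 h2 h3)
    (iv_e4 (O := fun _ => U) (a := fun p => α p.2) h1 h2 h3) G.vac
    (iv_vac (O := fun _ => U) (a := fun p => α p.2) (g := fun _ => g) h1 h2 h3 G.vac) _
    (fT_wn (g := fun _ => g) G.ev).1

theorem fv_a (u : Sm (on U1)) (hx : x ∈ U1) (hy : α x ∈ O) :
    fv ((G.h.sq G.s1 G.s2).pb u) (α x) = fv u x := by
  rw [G.h.fv_pb G.s1 G.s2 u hy, G.h.dif.left (G.s1 hx)]

variable (hA : ContDiff ℝ ∞ A) (hB : ContDiff ℝ ∞ B)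
include hA hB

theorem sm (hx : x ∈ U1) : ContDiffAt ℝ ∞ (sh A B ∘ dn4 α) (pj x) :=
  ContDiffAt.comp _ (G.h.eqv.pj_dn (G.s1 hx) ▸ P354BO.sh_at U0_cone hA hB
    ⟨G.h.pos x (G.s1 hx), G.h.eqv.ne x (G.s1 hx)⟩) (G.h.eqv.sm_dn (G.s1 hx))

/-- The image of the frame applied to the coordinates of the model. -/
theorem e0 (hx : x ∈ U1) (hy : α x ∈ O) (b c : Fin 4) :
    fv (f4 (G.F0.ghp (ge O (P354XE.pb (b4 U α) g))) b ((kS O A B).co c)) (α x) =
      ∑ d, fr4 (vT M a (g, x)) b d * cv c (fderiv ℝ (sh A B ∘ dn4 α) (pj x) (bs d)) := by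
  have o := G.pos.off
  have s : SmB (on U1) fun _ q => cv c ((sh A B ∘ dn4 α) q) :=
    on_of G.o1 fun y hy => (cv c).contDiff.contDiffAt.comp _ (G.sm hA hB hy)
  have e : (G.h.sq G.s1 G.s2).pb (P354XD.pb _ fun _ q => cv c ((sh A B ∘ dn4 α) q)) =
      (kS O A B).co c := ext_fv G.co.op fun y hy => by
    obtain ⟨z, hz, rfl⟩ := G.s2 hy
    rw [G.fv_a _ hz hy, P354BO.fv_co G.co hA hB c hy, fv_rs (rs_pb o s) hz, Function.comp,
      G.h.eqv.pj_dn (G.s1 hz)]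
  have b0 : (hp (on U1)).B (P354XD.pb _ fun _ q => cv c ((sh A B ∘ dn4 α) q)) = 0 := by
    simpa [KC.V_ap, Hp.kc, (hp_is o).tco] using V_pb o s 0 0 0 0 0 1
  rw [← e, ← f4_hom G.hom, G.fv_a _ hx hy, gT, f4_base _ _ (H_pb o s) b0]
  refine (map_sum (evO ⟨x, hx⟩) _ _).trans (Finset.sum_congr rfl fun d _ => ?_)
  refine (fv_mul _ _ x).trans (congrArg₂ _ (fv_rs (Rf.fr4 (fT_rf G.ev) b d) hx) ?_)
  refine (congrArg (fv · x) (L_pb o s d)).trans ((fv_rs (rs_pb o (s.db d)) hx).trans ?_)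
  exact congrArg _ (congrArg (· (bs d)) ((cv c).hasFDerivAt.comp _
    ((G.sm hA hB hx).differentiableAt (by simp)).hasFDerivAt).fderiv)

end Gl

theorem ev_ii {O : Set E6} (x : O) : evO x (ii _) = ii ℂ := fv_alg _ x.2

/-- The values of the generators. -/
def vec (s : E6 × ℝ × ℝ × ℂ × ℂ) : Fin 11 → ℂ :=
  ![zc 1 s.1, zc 2 s.1, zc 3 s.1, zc 4 s.1, zc 5 s.1, 0, 0, s.2.1, s.2.2.1, s.2.2.2.1, s.2.2.2.2]

theorem vec_cont : Continuous vec := continuous_pi fun k => by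
  fin_cases k <;> simp only [vec, Fin.reduceFinMk, Matrix.cons_val] <;> fun_prop

theorem gv_val {O : Set E6} {K : Hp (Sm (on O))} {p : Pm (Sm (on O))} {u v : Sm (on O)} (x : O)
    {y y' : E6} {M a : ℝ} (z : ∀ i, fv (K.z i) x = zc i y) (e : y.2 = y'.2) (h1 : fv p.a x = a)
    (h2 : fv p.M x = M) (k : Fin 11) (k5 : k ≠ 5) (k6 : k ≠ 6) :
    evO x (gv K p u v k) = vec (y', a, M, fv u x, fv v x) k := by
  have z' : ∀ i ≠ 0, fv (K.z i) x = zc i y' := fun i hi => by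
    rw [z]
    fin_cases i <;> simp [zc, e] at hi ⊢
  fin_cases k
  exacts [z' 1 (by decide), z' 2 (by decide), z' 3 (by decide), z' 4 (by decide), z' 5 (by decide),
    absurd rfl k5, absurd rfl k6, h1, h2, rfl, rfl]

/-- The closeness at the point x. -/
structure Pw (M a : ℝ) (A B : ℝ → ℝ) (U O : Set E6) (α : E6 → E6) (g : Tw) (F : Fr (Sm (on O)))
    (M' a' δ : ℝ) (x : E6) : Prop where
  par : |M' - M| + |a' - a| ≤ δ
  bd : P354XE.Bd 2 (g - gin M a) (pj x) δ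
  dψ : ‖fderiv ℝ (sh A B ∘ dn4 α) (pj x) - ContinuousLinearMap.id ℝ R4‖ ≤ δ
  dr : |(α x).2.1 - x.2.1| ≤ δ
  dξ : ‖(α x).2.2 - (s6 (-A) (-B) x).2.2‖ ≤ δ * ‖x.2.2‖
  d1 : ∀ i, ‖fv (dat (hp _) (pI O M M' a') (F.ghp (ge O (P354XE.pb (b4 U α) g))) i -
    dat (hp _) (pI O M M' a') (kI O M M' a').kerr i) (α x)‖ ≤ δ

/-- All data at one point. -/
structure Cf (M a r1 Rs : ℝ) (A B : ℝ → ℝ) where
  U : Set E6
  U1 : Set E6
  O : Set E6
  α : E6 → E6
  g : Tw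
  F : Fr (Sm (on O))
  M' : ℝ
  a' : ℝ
  δ : ℝ
  x : E6
  gl : Gl M a U U1 O α g F
  pw : Pw M a A B U O α g F M' a' δ x
  hx : x ∈ U1
  hy : α x ∈ O
  un : nq (α x) = 1
  r : x.2.1 ∈ Icc r1 Rs

end Vale.Agent.P354Z
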