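import Vale.Agent.P354YA.Uni

/-!
The words of the GHP operators under a boost and a spin of the frame.
-/

noncomputable section

namespace Vale.Agent.P354Z

open Vale.Agent.P354XG Vale.Agent.P354XG.Geo Vale.Agent.P354XD Vale.Agent.P354XR Vale.Agent.P354XI

section alg
variable {A : Type} [CommRing A] [Algebra ℂ A] (S : Geo A) (al be q : A)

/-- A boost and a spin which are constant along the fibres. -/
structure Bq : Prop where
  h1 : al * be = 1
  h2 : S.c al = al
  h3 : q * S.c q = 1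
  h4 : S.H al = 0
  h5 : S.H q = 0
  h6 : S.Hb q = 0

/-- The factor of the weights p, p'. -/
structure Wq (μ : A) (p p' : ℤ) : Prop where
  H : S.H μ = 0
  Hb : S.Hb μ = 0
  L : ∀ i, S.L i μ = μ * (hf A * ((p + p') * (be * S.L i al) + (p - p') * (S.c q * S.L i q)))

variable {S al be q} {F : Fr A}

theorem Wq.mul {μ ν : A} {p p' r r' : ℤ} (u : Wq S al be q μ p p') (v : Wq S al be q ν r r') :
    Wq S al be q (μ * ν) (p + r) (p' + r') :=
  ⟨by rw [D_mul, u.H, v.H]; ring, by rw [D_mul, u.Hb, v.Hb]; ring, fun i => by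
    rw [D_mul, u.L, v.L]; push_cast; ring⟩

theorem Wq.inv {μ ν : A} {p p' : ℤ} (u : Wq S al be q μ p p') (e : μ * ν = 1) :
    Wq S al be q ν (-p) (-p') := by
  have k : ∀ D : Der A, D ν = -(ν * ν * D μ) := fun D => by
    have := congrArg D e
    rw [D_mul, D_one] at this
    linear_combination ν * this - D ν * e
  refine ⟨by rw [k, u.H]; ring, by rw [k, u.Hb]; ring, fun i => ?_⟩
  rw [k, u.L]
  push_cast
  linear_combination -(ν * (hf A * ((p + p') * (be * S.L i al) + (p - p') * (S.c q * S.L i q)))) * e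

namespace Bq
variable (b : Bq S al be q)
include b

theorem wa (h : S.Is) : Wq S al be q al 1 1 :=
  ⟨b.h4, by rw [← b.h2, ← h.c_H, b.h4, map_zero], fun i => by
    push_cast
    linear_combination -(al * be * S.L i al) * two_hf (A := A) - S.L i al * b.h1⟩

theorem wq : Wq S al be q q 1 (-1) :=
  ⟨b.h5, b.h6, fun i => by
    push_cast
    linear_combination -(q * S.c q * S.L i q) * two_hf (A := A) - S.L i q * b.h3⟩

theorem wn (h : S.Is) (N : F.WN S) : (F.bo S al be q).WN S :=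
  N.bo h b.h1 b.h2 b.h3 b.h4 b.h5 b.h6

/-- The lift in the new gauge. -/
theorem act (N : F.WN S) {μ f : A} {p p' : ℤ} (u : Wq S al be q μ p p') (e : S.H f = p * f)
    (e' : S.Hb f = p' * f) (s : A) (X : Vec A) :
    S.act (hat S (al • F.l) (be • F.n) (q • F.m) (S.c q • F.mb) (s • X)) (μ * f) =
      s * μ * S.act (hat S F.l F.n F.m F.mb X) f := by
  have M : Null S F.l F.n F.m F.mb := N.nl
  have n : ∀ Z, S.nab ⟨s • X, 0, 0⟩ Z = s • S.nab ⟨X, 0, 0⟩ Z := fun Z => by
    funext d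
    simp only [nab, dv, act_apply, Gm_smul_left, Pi.add_apply, Pi.smul_apply, smul_eq_mul,
      Fin.sum_univ_four]
    ring
  simp only [hat, n, nab_smul, act_apply, dot_add_left, dot_smul_left, dot_smul_right, M.ln, M.mmb,
    D_mul, u.H, u.Hb, u.L, e, e', Pi.smul_apply, smul_eq_mul, Fin.sum_univ_four]
  generalize S.dot (S.nab ⟨X, 0, 0⟩ F.l) F.n = y, S.dot (S.nab ⟨X, 0, 0⟩ F.m) F.mb = z
  linear_combination (s * μ * f * hf A * (p + p') * y) * b.h1 - (s * μ * f * hf A * (p - p') * z) * b.h3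

end Bq

/-- The factors and the weights of the letters. -/
def bf (S : Geo A) (al be q : A) : Fin 4 → A := ![al, be, q, S.c q]
def w1 : Fin 4 → ℤ := ![1, -1, 1, -1]
def w2 : Fin 4 → ℤ := ![1, -1, -1, 1]

theorem Bq.wf (b : Bq S al be q) (h : S.Is) (i : Fin 4) :
    Wq S al be q (bf S al be q i) (w1 i) (w2 i) := by
  fin_cases i
  exacts [b.wa h, (b.wa h).inv b.h1, b.wq, b.wq.inv b.h3]

theorem Bq.f4 (b : Bq S al be q) (N : F.WN S) {μ f : A} {p p' : ℤ} (u : Wq S al be q μ p p')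
    (e : S.H f = p * f) (e' : S.Hb f = p' * f) (i : Fin 4) :
    f4 ((F.bo S al be q).ghp S) i (μ * f) = bf S al be q i * μ * f4 (F.ghp S) i f := by
  fin_cases i
  exacts [b.act N u e e' _ _, b.act N u e e' _ _, b.act N u e e' _ _, b.act N u e e' _ _]

theorem wt_f4 {G : GHP A} (g : G.Is) {f : A} {p p' : ℤ} (e : G.H f = p * f) (e' : G.Hb f = p' * f)
    (i : Fin 4) : G.H (f4 G i f) = ((w1 i + p : ℤ) : A) * f4 G i f ∧
      G.Hb (f4 G i f) = ((w2 i + p' : ℤ) : A) * f4 G i f := by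
  have k : ∀ (D : Der A) (n : ℤ), D (n * f) = n * D f := fun D n => by
    rw [D_mul, D.map_intCast, mul_zero, add_zero]
  fin_cases i <;> simp [f4, w1, w2, g.H_th, g.H_tp, g.H_et, g.H_ep, g.Hb_th, g.Hb_tp, g.Hb_et,
    g.Hb_ep, e, e', k, -Derivation.leibniz] <;> constructor <;> ring

/-- The sum of the squares of the values of the words. -/
def qw {ι : Type} [Fintype ι] (φ : A → ℂ) (X : ι → Der A) : ℕ → A → ℝ
  | 0, f => ‖φ f‖ ^ 2
  | n + 1, f => qw φ X n f + ∑ i, qw φ X n (X i f)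

theorem qw_nn {ι : Type} [Fintype ι] (φ : A → ℂ) (X : ι → Der A) (n : ℕ) (f : A) :
    0 ≤ qw φ X n f := by
  induction n generalizing f with
  | zero => exact sq_nonneg _
  | succ n ih => exact add_nonneg (ih f) (Finset.sum_nonneg fun i _ => ih _)

variable {P : Type} {G : Filter P} {φ : P → A → ℂ}
  (m : ∀ u v, ∀ᶠ x in G, φ x (u * v) = φ x u * φ x v) {Λ : ℝ} (h : S.Is) (N : F.WN S)
  (b : Bq S al be q) (l1 : 1 ≤ Λ) (l2 : ∀ i, ∀ᶠ x in G, ‖φ x (bf S al be q i)‖ ≤ Λ)
include m h N b l1 l2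

theorem qw_bo (n : ℕ) {μ f : A} {p p' : ℤ} (u : Wq S al be q μ p p') (e : S.H f = p * f)
    (e' : S.Hb f = p' * f) {c : ℝ} (hc : ∀ᶠ x in G, ‖φ x μ‖ ≤ c) :
    ∀ᶠ x in G, qw (φ x) (f4 ((F.bo S al be q).ghp S)) n (μ * f) ≤
      (Λ ^ n * c) ^ 2 * qw (φ x) (f4 (F.ghp S)) n f := by
  induction n generalizing μ f p p' c with
  | zero =>
    filter_upwards [m μ f, hc] with x k hc
    simp only [qw, k, norm_mul, mul_pow, pow_zero, one_mul]
    gcongr
  | succ n ih =>
    have k : ∀ i, ∀ᶠ x in G, ‖φ x (bf S al be q i * μ)‖ ≤ Λ * c := fun i => by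
      filter_upwards [m (bf S al be q i) μ, l2 i, hc] with x k1 k2 k3
      rw [k1, norm_mul]
      exact mul_le_mul k2 k3 (norm_nonneg _) (by linarith)
    filter_upwards [ih u e e' hc, hc, Filter.eventually_all.2 fun i => ih ((b.wf h i).mul u)
      (wt_f4 (N.is h) (f := f) e e' i).1 (wt_f4 (N.is h) (f := f) e e' i).2 (k i)] with x k1 k2 k3
    have c0 : 0 ≤ c := (norm_nonneg _).trans k2
    rw [qw, qw, mul_add, Finset.mul_sum]
    refine add_le_add (k1.trans ?_) (Finset.sum_le_sum fun i _ => ?_)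
    · have := qw_nn (φ x) (f4 (F.ghp S)) n f
      gcongr
      exact n.le_succ
    · rw [b.f4 N u e e' i]
      exact (k3 i).trans (le_of_eq (by ring))

/-- **The jets of P0 and P4 in the new frame.** -/
theorem eta_bo (n : ℕ) : ∀ᶠ x in G,
    qw (φ x) (f4 ((F.bo S al be q).ghp S)) n ((F.bo S al be q).ghp S).P0 +
      qw (φ x) (f4 ((F.bo S al be q).ghp S)) n ((F.bo S al be q).ghp S).P4 ≤
    (Λ ^ (n + 4)) ^ 2 *
      (qw (φ x) (f4 (F.ghp S)) n (F.ghp S).P0 + qw (φ x) (f4 (F.ghp S)) n (F.ghp S).P4) := by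
  have p := Fr.p_bo (S := S) (F := F) b.h1 b.h3
  have g := N.is h
  have k : ∀ i j, ∀ᶠ x in G,
      ‖φ x (bf S al be q i * bf S al be q j * (bf S al be q i * bf S al be q j))‖ ≤ Λ ^ 4 :=
    fun i j => by
      filter_upwards [l2 i, l2 j, m (bf S al be q i) (bf S al be q j),
        m (bf S al be q i * bf S al be q j) (bf S al be q i * bf S al be q j)] with x _ _ k1 k2
      rw [k2, k1, show Λ ^ 4 = Λ * Λ * (Λ * Λ) by ring]
      simp only [norm_mul]
      gcongr
  have a0 := qw_bo m h N b l1 l2 n (((b.wf h 0).mul (b.wf h 2)).mul ((b.wf h 0).mul (b.wf h 2)))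
    (f := (F.ghp S).P0) (g.H_P0.trans (by simp [w1])) (g.Hb_P0.trans (by simp [w2])) (k 0 2)
  have a4 := qw_bo m h N b l1 l2 n (((b.wf h 1).mul (b.wf h 3)).mul ((b.wf h 1).mul (b.wf h 3)))
    (f := (F.ghp S).P4) (g.H_P4.trans (by simp [w1])) (g.Hb_P4.trans (by simp [w2])) (k 1 3)
  filter_upwards [a0, a4] with x a0 a4
  rw [← pow_add, ← sq] at a0 a4
  rw [mul_add]
  exact add_le_add ((congrArg _ p.1).trans_le a0) ((congrArg _ p.2.2.2.2).trans_le a4)

end alg

theorem q2_qw {O : Set E6} {ι : Type} [Fintype ι] (X : ι → Der (Sm (on O))) (x : E6) (n : ℕ)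
    (f : Sm (on O)) : q2 X x n f = qw (fun u => fv u x) X n f := by
  induction n generalizing f with
  | zero => rfl
  | succ n ih => simp only [q2, qw, ih]

section fam
open Vale.Agent.P354YA (qq etG)
variable {J : Type} {G : Filter (J × E6)} [Loc G]

theorem qq_qw {ι : Type} [Fintype ι] (X : ι → Der (Sm G)) (p : J × E6) (n : ℕ) (f : Sm G) :
    qq X p n f = qw (fun u => rep u p) X n f := by
  induction n generalizing f with
  | zero => rfl
  | succ n ih => simp only [qq, qw, ih]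

/-- The family form. -/
theorem etG_bo {S : Geo (Sm G)} {F : Fr (Sm G)} {al be q : Sm G} {Λ : ℝ} (h : S.Is) (N : F.WN S)
    (b : Bq S al be q) (l1 : 1 ≤ Λ) (l2 : ∀ i, ∀ᶠ p in G, ‖rep (bf S al be q i) p‖ ≤ Λ) (n : ℕ) :
    ∀ᶠ p in G, etG ((F.bo S al be q).ghp S) n p ≤ (Λ ^ (n + 4)) ^ 2 * etG (F.ghp S) n p := by
  simp only [etG, qq_qw]
  exact eta_bo (φ := fun p u => rep u p) (fun u v => rep_mul u v) h N b l1 l2 n

end fam

end Vale.Agent.P354Z
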