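import Vale.Agent.P354Z.Cmp
import Vale.Agent.P354BO.Th
import Vale.Agent.P354RI.Tri
import Vale.Agent.P354DR.Cht

/-!
The frame of Kerr applied to the coordinates as a polynomial in the generators, and its limits.
-/

open Filter Topology

noncomputable section

namespace Vale.Agent.P354Z

open Vale.Agent.P354XG Vale.Agent.P354XG.Geo Vale.Agent.P354XD Vale.Agent.P354XR
open Vale.Agent.P354RI (kc)
open Vale.Agent.P354CV (Spn)

section alg
variable {A B : Type} [CommRing A] [Algebra ℂ A] [CommRing B] [Algebra ℂ B]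

def fr4 (F : Fr A) : Fin 4 → Vec A := ![F.l, F.n, F.m, F.mb]

/-- The fields T R P Q H B applied to the coordinates. -/
def Bz (K : Hp A) (u v : A) : Fin 6 → Vec A :=
  ![Hp.e0 A, fun c => K.om c - Hp.e0 A c + u * Hp.e0 A c +
      v * (ii A * K.kc.s * (K.z 1 * K.mub c) - ii A * K.kc.sb * (K.z 1 * K.mu c)),
    fun c => K.z 1 * K.mub c, fun c => K.z 1 * K.mu c, 0, 0]

/-- The generators, and the polynomials. -/
def gv (K : Hp A) (p : Pm A) (u v : A) : Fin 11 → A :=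
  ![K.z 1, K.z 2, K.z 3, K.z 4, K.z 5, K.Ni, p.sg, p.a, p.M, u, v]
def hV (v : Fin 11 → A) : Hp A := ⟨RingHom.id A, 0, ![0, v 0, v 1, v 2, v 3, v 4], 0, v 5⟩
def kV (v : Fin 11 → A) : KC A := kk (hV v) ⟨v 7, v 8, v 6, 1, 0⟩
def bV (v : Fin 11 → A) : Fin 6 → Vec A := Bz (hV v) (v 9) (v 10)
def cV (v : Fin 11 → A) (i : Fin 4) (e : Fin 6) : A := kc (kV v) (i.castLE (by norm_num)) e
def pV (v : Fin 11 → A) : Matrix (Fin 4) (Fin 4) A := .of fun i c => ∑ e, cV v i e * bV v e c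

/-- The relations. -/
def Rl (v : Fin 11 → A) : Prop := (v 1 * v 3 + v 2 * v 4) * v 5 = 1 ∧
  (v 0 * v 0 + v 7 * v 7 * ((v 1 * v 3 - v 2 * v 4) * v 5) * ((v 1 * v 3 - v 2 * v 4) * v 5)) *
    v 6 = 1

variable {K K' : Hp A} {p p0 : Pm A} (φ : A →+* B)

omit [Algebra ℂ A] [Algebra ℂ B] in
theorem Rl.map {v : Fin 11 → A} (h : Rl v) : Rl (φ ∘ v) :=
  ⟨by simpa using congrArg φ h.1, by simpa using congrArg φ h.2⟩

section
variable (hφ : φ (ii A) = ii B) (v : Fin 11 → A)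
include hφ

theorem bV_map (e : Fin 6) (c : Fin 4) : φ (bV v e c) = bV (φ ∘ v) e c := by
  fin_cases e <;> fin_cases c <;>
    simp [bV, Bz, hV, Hp.e0, Hp.om, Hp.mu, Hp.mub, Hp.kc, hφ, map_ofNat]

theorem cV_map (i : Fin 4) (e : Fin 6) : φ (cV v i e) = cV (φ ∘ v) i e := by
  fin_cases i <;> fin_cases e <;>
    simp [cV, kc, kV, kk, hV, Hp.kc, Hp.N, KC.W, KC.De, KC.ee, KC.z, KC.zb, hφ, map_ofNat]

theorem P2_map : φ (kV v).P2 = (kV (φ ∘ v)).P2 := by
  simp [kV, kk, hV, Hp.kc, KC.P2, KC.z, hφ, map_ofNat]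

end

variable (h : K'.Is) (e : kk K' { p0 with h1 := 1, j1 := 0 } = kk K p0)
include h e

theorem bs_bV (i : Fin 6) (c : Fin 4) :
    (kk K p).bs i (K'.co c) = bV (gv K' p (p0.h1 - p.h1) (p0.j1 - p.j1)) i c := by
  obtain ⟨t1, t2, t3, t4, t5, t6⟩ := P354BO.bs_co (p := { p0 with h1 := 1, j1 := 0 }) h rfl c
  have s1 : K'.kc.s = K.kc.s := (congrArg KC.s e :)
  have s2 : K'.kc.sb = K.kc.sb := (congrArg KC.sb e :)
  rw [e] at t1 t2 t3 t4 t5 t6
  have t7 : (kk K p).R (K'.co c) = Bz K' (p0.h1 - p.h1) (p0.j1 - p.j1) 1 c := by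
    change K.kc.T _ = _ at t1
    change K.kc.P _ = _ at t3
    change K.kc.Q _ = _ at t4
    change K.kc.H _ = _ at t5
    change K.kc.B _ = _ at t6
    simp only [kk_R, KC.F2, KC.V_ap, t1, t3, t4, t5, t6, s1, s2, Bz, Matrix.cons_val] at t2 ⊢
    linear_combination t2
  fin_cases i
  exacts [t1, t7, t3, t4, t5, t6]

omit h in
theorem kc_cV (u v : A) : (∀ i d, kc (kk K p) (i.castLE (by norm_num)) d = cV (gv K' p u v) i d) ∧
    (kk K p).P2 = (kV (gv K' p u v)).P2 ∧ (p.Is K → K.Is → Rl (gv K' p u v)) := by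
  have s0 : K.z 1 = K'.z 1 := (congrArg KC.r e).symm
  have s1 : K.kc.s = K'.kc.s := (congrArg KC.s e).symm
  have s2 : K.kc.sb = K'.kc.sb := (congrArg KC.sb e).symm
  have s3 : K.kc.x = K'.kc.x := (congrArg KC.x e).symm
  have s4 : K.N = K'.N := (congrArg KC.N e).symm
  have s5 : K.Ni = K'.Ni := (congrArg KC.Ni e).symm
  refine ⟨fun i d => ?_, ?_, fun q k => ⟨?_, ?_⟩⟩
  · change _ = kc (kk K' p) (i.castLE _) d
    have : ∀ K : Hp A, kc (kk K p) = kc ⟨RingHom.id A, 0, 0, 0, 0, 0, 0, K.z 1, K.kc.x, K.kc.s,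
      K.kc.sb, K.N, K.Ni, p.sg, p.a, p.M⟩ := fun _ => rfl
    rw [this, this, s0, s1, s2, s3, s4, s5]
  · change -(2 * p.M * (p.sg * (K.z 1 + ii A * p.a * K.kc.x)) * (p.sg * (K.z 1 + ii A * p.a *
      K.kc.x)) * (p.sg * (K.z 1 + ii A * p.a * K.kc.x))) = _
    rw [s0, s3]
    rfl
  · exact (s4 ▸ s5 ▸ k.hN : K'.N * K'.Ni = 1)
  · exact (mul_comm _ _).trans (s0 ▸ s3 ▸ q.hg : p.sg * (K'.z 1 * K'.z 1 +
      p.a * p.a * K'.kc.x * K'.kc.x) = 1)

/-- A field applied to the coordinates, in terms of the difference to Kerr. -/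
theorem fld_co (k : K.Is) {D : Der A} (s : Spn K D) (i c : Fin 4) : D (K'.co c) =
    ∑ d, (cm K p D d - cm K p (f4 (kk K p).kerr i) d +
      cV (gv K' p (p0.h1 - p.h1) (p0.j1 - p.j1)) i d) *
      bV (gv K' p (p0.h1 - p.h1) (p0.j1 - p.j1)) d c := by
  rw [s.cm k p]
  refine Finset.sum_congr rfl fun d _ => ?_
  rw [bs_bV h e, ← (kc_cV e _ _).1]
  congr 1
  fin_cases i <;> simp only [f4, KC.kerr, KC.th, KC.tp, KC.et, KC.ep, P354DR.cm_V k,
    Fin.reduceFinMk, Matrix.cons_val] <;> exact (sub_add_cancel _ _).symm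

omit h e

theorem frK_pV (k : K.Is) (h1 : p.h1 = 1) (j1 : p.j1 = 0) (i c : Fin 4) :
    fr4 (frK K p) i c = pV (gv K p 0 0) i c := by
  have := fld_co (p := p) (p0 := p) k (by rw [← h1, ← j1]) k (P354CV.spn_kerr (p := p) k i) i c
  simp only [sub_self, zero_add] at this
  refine Eq.trans ?_ this
  fin_cases i <;> rfl

theorem pV_det (k : K.Is) (q : p.Is K) (h1 : p.h1 = 1) (j1 : p.j1 = 0) :
    IsUnit (pV (gv K p 0 0)).det := by
  have e : pV (gv K p 0 0) = .of (fr4 (frK K p)) := by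
    ext i c; exact (frK_pV k h1 j1 i c).symm
  have := congrArg Matrix.det (P354BO.kerr_mat k q)
  rw [Matrix.det_mul, Matrix.det_mul, P354BO.eta_det, mul_assoc] at this
  exact e ▸ IsUnit.of_mul_eq_one _ this

/-- The components of a field in a null frame, on functions of the base. -/
def cf (S : Geo A) (F : Fr A) (X : Vec A) : Fin 4 → A :=
  ![-S.dot X F.n, -S.dot X F.l, S.dot X F.mb, S.dot X F.m]

theorem f4_base (S : Geo A) (F : Fr A) {f : A} (h1 : S.H f = 0) (h2 : S.Hb f = 0) (i : Fin 4) :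
    f4 (F.ghp S) i f = ∑ a, fr4 F i a * S.L a f := by
  have : ∀ u : Op A, S.act u f = ∑ a, u.X a * S.L a f := fun u => by
    rw [act_apply, h1, h2]; ring
  fin_cases i <;> exact this _

theorem f4_span {S : Geo A} {F F' : Fr A} (h : S.Is) (N : F.Nl S) {f : A} (h1 : S.H f = 0)
    (h2 : S.Hb f = 0) (b : Fin 4) :
    f4 (F'.ghp S) b f = ∑ i, cf S F (fr4 F' b) i * f4 (F.ghp S) i f := by
  have e := congrFun (Null.span h N (fr4 F' b))
  simp only [Pi.add_apply, Pi.smul_apply, smul_eq_mul] at e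
  simp only [f4_base _ _ h1 h2, cf, Fin.sum_univ_four, Matrix.cons_val]
  simp only [fr4, Matrix.cons_val] at e ⊢
  linear_combination S.L 0 f * e 0 + S.L 1 f * e 1 + S.L 2 f * e 2 + S.L 3 f * e 3

end alg

/-! ### Limits -/

theorem cont_of {P : (Fin 11 → ℂ) → ℂ} (Q : (Fin 11 → C(Fin 11 → ℂ, ℂ)) → C(Fin 11 → ℂ, ℂ))
    (h : ∀ φ : C(Fin 11 → ℂ, ℂ) →+* ℂ, φ (ii _) = ii ℂ → ∀ v, φ (Q v) = P (φ ∘ v)) :
    Continuous P :=
  (Q fun k => ⟨_, continuous_apply k⟩).continuous.congr fun v =>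
    h ((Pi.evalRingHom _ v).comp ContinuousMap.coeFnRingHom) rfl _

theorem bV_cont (e : Fin 6) (c : Fin 4) : Continuous fun v : Fin 11 → ℂ => bV v e c :=
  cont_of _ fun φ h v => bV_map φ h v e c
theorem cV_cont (i : Fin 4) (e : Fin 6) : Continuous fun v : Fin 11 → ℂ => cV v i e :=
  cont_of _ fun φ h v => cV_map φ h v i e
theorem P2_cont : Continuous fun v : Fin 11 → ℂ => (kV v).P2 :=
  cont_of _ fun φ h v => P2_map φ h v

variable {J : Type} {F : Filter J}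

theorem lim_inv {u s : J → ℂ} {a b : ℂ} (h : Tendsto u F (𝓝 a)) (e : ∀ j, u j * s j = 1)
    (e' : a * b = 1) : Tendsto s F (𝓝 b) := by
  rw [eq_inv_of_mul_eq_one_right e']
  exact (h.inv₀ (left_ne_zero_of_mul_eq_one e')).congr fun j =>
    (eq_inv_of_mul_eq_one_right (e j)).symm

theorem lim_gv {v : J → Fin 11 → ℂ} {w : Fin 11 → ℂ} (r : ∀ j, Rl (v j)) (r' : Rl w)
    (h : ∀ k, k ≠ 5 → k ≠ 6 → Tendsto (fun j => v j k) F (𝓝 (w k))) : Tendsto v F (𝓝 w) := by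
  have a := (h 1 (by decide) (by decide)).mul (h 3 (by decide) (by decide))
  have b := (h 2 (by decide) (by decide)).mul (h 4 (by decide) (by decide))
  have c := h 0 (by decide) (by decide)
  have d := h 7 (by decide) (by decide)
  have h5 := lim_inv (a.add b) (fun j => (r j).1) r'.1
  have x := (a.sub b).mul h5
  have h6 := lim_inv ((c.mul c).add (((d.mul d).mul x).mul x)) (fun j => (r j).2) r'.2
  refine tendsto_pi_nhds.2 fun k => ?_
  by_cases k5 : k = 5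
  · exact k5 ▸ h5
  by_cases k6 : k = 6
  exacts [k6 ▸ h6, h k k5 k6]

theorem P2_ne {w : Fin 11 → ℂ} (r : Rl w) (h : w 8 ≠ 0) : (kV w).P2 ≠ 0 := by
  have z : (kV w).z ≠ 0 := fun e => by
    have k : (kV w).z * (kV w).zb = w 6 := by
      simp only [KC.z, KC.zb, kV, kk, hV, Hp.kc, Matrix.cons_val]
      linear_combination w 6 * r.2 - (w 6 * w 7 * ((w 1 * w 3 - w 2 * w 4) * w 5)) ^ 2 *
        ii_sq (A := ℂ)
    have := r.2
    rw [← k, e] at this
    simp at this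
  exact neg_ne_zero.2 (mul_ne_zero (mul_ne_zero (mul_ne_zero (mul_ne_zero two_ne_zero h) z) z) z)

theorem lim_mat {L E0 E1 : J → Matrix (Fin 4) (Fin 4) ℂ} {P : Matrix (Fin 4) (Fin 4) ℂ}
    (e : ∀ j, E0 j = L j * E1 j) (h0 : Tendsto E0 F (𝓝 P)) (h1 : Tendsto E1 F (𝓝 P))
    (u : IsUnit P.det) : Tendsto L F (𝓝 1) := by
  have c : ContinuousAt Inv.inv P :=
    continuousAt_matrix_inv P (u.unit_spec ▸ NormedRing.inverse_continuousAt u.unit)
  rw [← Matrix.mul_nonsing_inv P u]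
  refine (h0.mul (c.tendsto.comp h1)).congr' ?_
  filter_upwards [((continuous_id.matrix_det.tendsto P).comp h1).eventually_ne u.ne_zero] with j k
  rw [e j, Function.comp, Matrix.mul_assoc, Matrix.mul_nonsing_inv (E1 j) (IsUnit.mk0 _ k),
    Matrix.mul_one]

end Vale.Agent.P354Z
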