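import Vale.Agent.P354Z.Cmb

/-!
The limit of the products of the two frames.
-/

open scoped ContDiff
open Set Filter Topology

noncomputable section

namespace Vale.Agent.P354Z

open Vale.Agent.P354n (R4)
open Vale.Agent.P354RC (cv bs)
open Vale.Agent.P354XG Vale.Agent.P354XD Vale.Agent.P354XR Vale.Agent.P354XI
open Vale.Agent.P354XE (Tw gin)
open Vale.Agent.P354XO (Cht b4 dn4)
open Vale.Agent.P354YA
open Vale.Agent.P354YO (sh IsTh)
open Vale.Agent.P354BO (kS lsh U0 U0_cone pe mq_lsh fv_z th_sm kk_S kS_is)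
open Vale.Agent.P354CV (cone_hp cone_pos fv_rs fv_rf hs_on js_on hs_cd js_cd pI_is)
open Vale.Agent.P354CQ (s6)

theorem pV_map {O : Set E6} (x : O) (v : Fin 11 → Sm (on O)) (i c : Fin 4) :
    fv (pV v i c) x = pV (evO x ∘ v) i c := by
  show evO x (∑ e, cV v i e * bV v e c) = ∑ e, cV (evO x ∘ v) i e * bV (evO x ∘ v) e c
  rw [map_sum]
  exact Finset.sum_congr rfl fun d _ => by
    rw [map_mul, bV_map _ (ev_ii x), cV_map _ (ev_ii x)]

theorem pV_cont (i c : Fin 4) : Continuous fun v : Fin 11 → ℂ => pV v i c := by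
  show Continuous fun v : Fin 11 → ℂ => ∑ e, cV v i e * bV v e c
  exact continuous_finsetSum _ fun d _ => (cV_cont i d).mul (bV_cont d c)

theorem lim_small {J E : Type} [NormedAddCommGroup E] {F : Filter J} {f : J → E} {δ : J → ℝ}
    (h : Tendsto δ F (𝓝 0)) (e : ∀ᶠ j in F, ‖f j‖ ≤ δ j) : Tendsto f F (𝓝 0) :=
  squeeze_zero_norm' e h

theorem nq_cont : Continuous nq := by unfold nq; fun_prop

theorem norm_le_of_nq {x : E6} (h : nq x = 1) : ‖x.2.2‖ ≤ 1 := by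
  simp only [nq, Complex.normSq_eq_norm_sq] at h
  exact max_le (by nlinarith [norm_nonneg x.2.2.1, sq_nonneg ‖x.2.2.2‖])
    (by nlinarith [norm_nonneg x.2.2.2, sq_nonneg ‖x.2.2.1‖])

variable {M a r1 Rs : ℝ} {A B : ℝ → ℝ}

namespace Cf
variable (j : Cf M a r1 Rs A B)

def S : Geo (Sm (on j.O)) := ge j.O (P354XE.pb (b4 j.U j.α) j.g)
def y : j.O := ⟨j.α j.x, j.hy⟩
def L : Matrix (Fin 4) (Fin 4) ℂ := .of fun b i => fv (cf j.S j.F (fr4 j.gl.F0 b) i) j.y
def E (F : Fr (Sm (on j.O))) : Matrix (Fin 4) (Fin 4) ℂ :=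
  .of fun b c => fv (f4 (F.ghp j.S) b ((kS j.O A B).co c)) j.y
def g1 : Fin 11 → Sm (on j.O) := gv (kS j.O A B) (pI j.O M j.M' j.a')
  ((pI j.O M M a).h1 - (pI j.O M j.M' j.a').h1) ((pI j.O M M a).j1 - (pI j.O M j.M' j.a').j1)
def v1 : Fin 11 → ℂ := evO j.y ∘ j.g1
def v0 : Fin 11 → ℂ := evO ⟨j.x, j.hx⟩ ∘ gv (hp (on j.U1)) (pm _ (fun _ => M) fun _ => a) 0 0
def d (i : (Fin 4 × Fin 6) ⊕ Fin 13) : ℂ := fv (dat (hp _) (pI j.O M j.M' j.a') (j.F.ghp j.S) i -
  dat (hp _) (pI j.O M j.M' j.a') (kI j.O M j.M' j.a').kerr i) j.y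

variable (h0 : 0 < M) (t : IsTh M M a A B)
include h0 t

theorem ek : kk (kS j.O A B) { pI j.O M M a with h1 := 1, j1 := 0 } =
    kk (hp (on j.O)) (pI j.O M M a) := kk_S j.gl.co h0 t

theorem ks : (kS j.O A B).Is := kS_is j.gl.co (th_sm h0 t).1 (th_sm h0 t).2.1

theorem span : j.E j.gl.F0 = j.L * j.E j.F := by
  ext b c
  have e := bs_bV (p := pI j.O M M a) (j.ks h0 t) (j.ek h0 t)
  exact (congrArg (evO j.y) (f4_span j.gl.is j.gl.wn.nl (e 4 c) (e 5 c) b)).trans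
    ((map_sum _ _ _).trans (Finset.sum_congr rfl fun i _ => map_mul _ _ _))

theorem e1 (i c : Fin 4) : j.E j.F i c = ∑ e, (j.d (.inl (i, e)) + cV j.v1 i e) * bV j.v1 e c :=
  (congrArg (evO j.y) (fld_co (p := pI j.O M j.M' j.a') (j.ks h0 t) (j.ek h0 t) (cone_hp j.gl.co)
    (P354CV.spn_ghp (cone_hp j.gl.co) _ _ j.F i) i c)).trans ((map_sum _ _ _).trans
      (Finset.sum_congr rfl fun e _ => by
        rw [map_mul, map_add, bV_map _ (ev_ii _), cV_map _ (ev_ii _)]; rfl))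

theorem rl1 : Rl j.v1 :=
  ((kc_cV (j.ek h0 t) _ _).2.2 (pI_is j.gl.co h0 _ _) (cone_hp j.gl.co)).map _

theorem ps : fv (j.F.p0 j.S) j.y = j.d (.inr 8) ∧ fv (j.F.p4 j.S) j.y = j.d (.inr 12) ∧
    fv (j.F.p2 j.S) j.y = j.d (.inr 10) + (kV j.v1).P2 := by
  refine ⟨congrArg (evO j.y) (sub_zero _).symm, congrArg (evO j.y) (sub_zero _).symm, ?_⟩
  rw [v1, ← P2_map _ (ev_ii _), g1, ← (kc_cV (j.ek h0 t) _ _).2.1]
  exact (congrArg (evO j.y) (sub_add_cancel _ _).symm).trans (map_add _ _ _)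

omit h0 t

theorem rl0 : Rl j.v0 := ((kc_cV (p0 := pm _ (fun _ => M) fun _ => a) rfl _ _).2.2
  (pm_is j.gl.pos _ _) (hp_is j.gl.pos.off)).map _

theorem k0 (b c : Fin 4) : fr4 (vF M a (j.g, j.x)) b c = pV j.v0 b c :=
  (fv_rs (Rf.fr4 (vals (M := M) (a := a) (g := fun _ => j.g)
    (k0_of (g := fun _ => j.g) j.gl.ev)).2.2 b c) j.hx).symm.trans ((congrArg (fv · j.x) (frK_pV (hp_is j.gl.pos.off) rfl rfl b c)).trans
      (pV_map ⟨j.x, j.hx⟩ _ b c))

end Cf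

/-- The limit of the generators. -/
theorem ex_lim (h0 : 0 < M) (h1 : 0 < r1) (t : IsTh M M a A B) (U : Ultrafilter (Cf M a r1 Rs A B))
    (δ0 : Tendsto (Cf.δ : Cf M a r1 Rs A B → ℝ) U (𝓝 0)) :
    ∃ w : Fin 11 → ℂ, Rl w ∧ w 8 ≠ 0 ∧ IsUnit (pV w).det ∧
      Tendsto (Cf.v0 : Cf M a r1 Rs A B → _) U (𝓝 w) ∧
      Tendsto (Cf.v1 : Cf M a r1 Rs A B → _) U (𝓝 w) ∧
      ∀ᶠ j : Cf M a r1 Rs A B in U, An j.x := by
  obtain ⟨hA, hB, -⟩ := th_sm h0 t
  obtain ⟨⟨r, η⟩, ⟨hr, -⟩, lim⟩ := ((isCompact_Icc (a := r1) (b := Rs)).prod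
    (isCompact_closedBall (0 : ℂ × ℂ) 1)).ultrafilter_le_nhds
    (U.map fun j : Cf M a r1 Rs A B => (j.x.2.1, (j.α j.x).2.2)) (le_principal_iff.2 (mem_map.2
      (univ_mem' fun j : Cf M a r1 Rs A B =>
        ⟨j.r, mem_closedBall_zero_iff.2 (norm_le_of_nq j.un)⟩)))
  have l1 : Tendsto (fun j : Cf M a r1 Rs A B => j.x.2.1) U (𝓝 r) :=
    (continuous_fst.tendsto _).comp lim
  have l2 : Tendsto (fun j : Cf M a r1 Rs A B => (j.α j.x).2.2) U (𝓝 η) :=
    (continuous_snd.tendsto _).comp lim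
  have l3 : Tendsto (fun j : Cf M a r1 Rs A B => (j.α j.x).2.1) U (𝓝 r) := by
    simpa using (lim_small δ0 (.of_forall fun j => j.pw.dr)).add l1
  have n : ∀ x : E6, ‖(s6 (-A) (-B) x).2.2‖ = ‖x.2.2‖ := fun x => by
    simp [← lsh_s6, lsh, Prod.norm_def, P354BO.pe_norm]
  have l4 : Tendsto (fun j : Cf M a r1 Rs A B => (s6 (-A) (-B) j.x).2.2) U (𝓝 η) := by
    have : Tendsto (fun j : Cf M a r1 Rs A B => 2 * j.δ) U (𝓝 0) := by
      simpa using δ0.const_mul 2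
    suffices h : ∀ᶠ j : Cf M a r1 Rs A B in U,
        ‖(j.α j.x).2.2 - (s6 (-A) (-B) j.x).2.2‖ ≤ 2 * j.δ by simpa using l2.sub (lim_small this h)
    filter_upwards [δ0.eventually (gt_mem_nhds (by norm_num : (0 : ℝ) < 1 / 2))] with j k
    have k1 := j.pw.dξ
    have k2 := norm_le_of_nq j.un
    have k3 := norm_sub_norm_le (s6 (-A) (-B) j.x).2.2 (j.α j.x).2.2
    have k4 := (abs_nonneg _).trans j.pw.dr
    rw [norm_sub_rev, n] at k3
    nlinarith [norm_nonneg j.x.2.2]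
  have c : Continuous fun q : ℝ × ℂ × ℂ => lsh A B (0, q) :=
    (mq_lsh U0_cone hA hB).sm.continuous.comp (by fun_prop)
  have X := (c.tendsto _).comp (l1.prodMk_nhds l4)
  have Y := (c.tendsto _).comp (l3.prodMk_nhds l2)
  have eX : ∀ x : E6, x.2 = (lsh A B (0, x.2.1, (s6 (-A) (-B) x).2.2)).2 := fun x => by
    simp [← lsh_s6, lsh, pe, ← mul_assoc, ← Complex.exp_add, neg_div]
  have u : nq (lsh A B (0, r, η)) = 1 := tendsto_nhds_unique ((nq_cont.tendsto _).comp Y)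
    (tendsto_const_nhds.congr fun j : Cf M a r1 Rs A B =>
      ((P354BO.lsh_nq (A := A) (B := B) _).trans j.un).symm)
  obtain ⟨w, hw⟩ : ∃ w : U0, w.1 = lsh A B (0, r, η) :=
    ⟨⟨_, h1.trans_le hr.1, ne_of_nq u⟩, rfl⟩
  have o := cone_pos U0_cone
  have rw' : Rl (evO w ∘ gv (hp (on U0)) (pm _ (fun _ => M) fun _ => a) 0 0) :=
    ((kc_cV (p0 := pm _ (fun _ => M) fun _ => a) rfl _ _).2.2 (pm_is o _ _) (hp_is o.off)).map _
  have vw := gv_val (u := 0) (v := 0) (p := pm _ (fun _ => M) fun _ => a) w (fun i => fv_z i w.2)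
    (congrArg Prod.snd hw) (fv_rs (rs_cst _) w.2) (fv_rs (rs_cst _) w.2)
  simp only [fv_zero] at vw
  refine ⟨_, rw', ?_, ?_, lim_gv Cf.rl0 rw' fun k k5 k6 => ?_,
    lim_gv (fun j => j.rl1 h0 t) rw' fun k k5 k6 => ?_, ?_⟩
  · exact (vw 8 (by decide) (by decide)).trans_ne (Complex.ofReal_ne_zero.2 h0.ne')
  · have := (pV_det (hp_is o.off) (pm_is o (fun _ => M) fun _ => a) rfl rfl).map (evO w)
    rw [RingHom.map_det] at this
    rwa [show (evO w).mapMatrix _ = pV (evO w ∘ gv (hp (on U0)) (pm _ (fun _ => M) fun _ => a) 0 0)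
      from Matrix.ext fun i c => pV_map w _ i c] at this
  · rw [Function.comp, vw k k5 k6]
    refine (((continuous_apply k).comp vec_cont).tendsto _ |>.comp
      (X.prodMk_nhds tendsto_const_nhds)).congr fun j => ?_
    have := gv_val (u := 0) (v := 0) (p := pm _ (fun _ => M) fun _ => a) ⟨j.x, j.hx⟩
      (fun i => fv_z i j.hx) (eX _) (fv_rs (rs_cst _) j.hx) (fv_rs (rs_cst _) j.hx) k k5 k6
    simp only [fv_zero] at this
    exact this.symm
  · have lM : Tendsto (Cf.M' : Cf M a r1 Rs A B → ℝ) U (𝓝 M) := by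
      simpa using (lim_small (f := fun j : Cf M a r1 Rs A B => j.M' - M) δ0 (.of_forall fun j =>
        (le_add_of_nonneg_right (abs_nonneg _)).trans j.pw.par)).add_const M
    have la : Tendsto (Cf.a' : Cf M a r1 Rs A B → ℝ) U (𝓝 a) := by
      simpa using (lim_small (f := fun j : Cf M a r1 Rs A B => j.a' - a) δ0 (.of_forall fun j =>
        (le_add_of_nonneg_left (abs_nonneg _)).trans j.pw.par)).add_const a
    have lf : ∀ f : ℝ × ℝ × ℝ → ℝ, Continuous f → Tendsto (fun j : Cf M a r1 Rs A B =>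
        (f (M, a, (j.α j.x).2.1) : ℂ) - f (j.M', j.a', (j.α j.x).2.1)) U (𝓝 0) := fun f hf => by
      have k := (Complex.continuous_ofReal.comp hf).tendsto (M, a, r)
      simpa using (k.comp (tendsto_const_nhds.prodMk_nhds (tendsto_const_nhds.prodMk_nhds l3))).sub
        (k.comp (lM.prodMk_nhds (la.prodMk_nhds l3)))
    rw [Function.comp, vw k k5 k6]
    refine (((continuous_apply k).comp vec_cont).tendsto _ |>.comp
      (Y.prodMk_nhds (la.prodMk_nhds (lM.prodMk_nhds ((lf _ (hs_cd h0).continuous).prodMk_nhds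
        (lf _ (js_cd h0).continuous)))))).congr fun j => ?_
    have c := j.gl.co
    refine Eq.trans ?_ (gv_val j.y (y := lsh A B (j.α j.x)) (fun i => ?_) rfl
      (fv_rs (rs_cst _) j.hy) (fv_rs (rs_cst _) j.hy) k k5 k6).symm
    · rw [P354BO.fv_sb j.y.2, P354BO.fv_sb j.y.2]
      simp only [pI, fv_rf c (hs_on h0 _ _) j.y.2, fv_rf c (js_on h0 _ _) j.y.2]
      rfl
    · rw [← P354BO.lsh_z c hA hB, (mq_lsh c hA hB).fv_pb _ j.y.2]
      exact fv_z i ((mq_lsh c hA hB).mp j.hy)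
  · have := ((nq_cont.tendsto _).comp X).congr (f₂ := fun j => nq j.x) fun j => by
      simp only [Function.comp, nq, ← eX]
    rw [u] at this
    exact (this.eventually (Icc_mem_nhds (by norm_num) (by norm_num)))

def Cf.Z (j : Cf M a r1 Rs A B) : Prop := Cz 2 (fv (j.S.dot j.gl.F0.l j.F.n) j.y)
  (fv (j.S.dot j.gl.F0.l j.F.m) j.y) (fv (j.S.dot j.gl.F0.m j.F.n) j.y)
  (fv (j.S.dot j.gl.F0.m j.F.mb) j.y) (fv (j.F.p0 j.S) j.y) (fv (j.F.p2 j.S) j.y)
  (fv (j.F.p4 j.S) j.y)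

theorem cz_lim (h0 : 0 < M) (h1 : 0 < r1) (t : IsTh M M a A B) (U : Ultrafilter (Cf M a r1 Rs A B))
    (δ0 : Tendsto (Cf.δ : Cf M a r1 Rs A B → ℝ) U (𝓝 0)) :
    ∀ᶠ j : Cf M a r1 Rs A B in U, j.Z ∧ An j.x := by
  obtain ⟨w, rl, w8, u, l0, l1, an⟩ := ex_lim h0 h1 t U δ0
  obtain ⟨hA, hB, -⟩ := th_sm h0 t
  have ld : ∀ i, Tendsto (fun j : Cf M a r1 Rs A B => j.d i) U (𝓝 0) := fun i =>
    lim_small δ0 (.of_forall fun j => j.pw.d1 i)
  have lf : Tendsto (fun j : Cf M a r1 Rs A B => (j.g, j.x, j.δ)) U (fl M a r1 Rs 2) :=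
    tendsto_inf.2 ⟨tendsto_comap_iff.2 δ0, tendsto_principal.2 (an.mono fun j k =>
      ⟨ev_on j.gl.vac j.hx, j.r.1, j.r.2, k, j.pw.bd⟩)⟩
  have lψ : ∀ c d, Tendsto (fun j : Cf M a r1 Rs A B =>
      (cv c (fderiv ℝ (sh A B ∘ dn4 j.α) (pj j.x) (bs d)) : ℂ)) U (𝓝 (cv c (bs d) : ℝ)) :=
    fun c d => by
      have k : Continuous fun T : R4 →L[ℝ] R4 => (cv c (T (bs d)) : ℂ) := by fun_prop
      simpa [Function.comp_def] using (k.tendsto _).comp ((lim_small δ0 (.of_forall fun j =>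
        j.pw.dψ)).add_const (ContinuousLinearMap.id ℝ R4))
  have L := lim_mat (F := U) (fun j : Cf M a r1 Rs A B => j.span h0 t) (tendsto_pi_nhds.2 fun b =>
      tendsto_pi_nhds.2 fun c => by
    have := tendsto_finsetSum Finset.univ fun d _ => ((((ft_lim M a r1 Rs h0.ne' h1 b d).comp
      lf).add (((pV_cont b d).tendsto _).comp l0)).mul (lψ c d))
    simp only [zero_add, P354RC.cv_bs, apply_ite, Complex.ofReal_one, Complex.ofReal_zero, mul_one,
      mul_zero, Finset.sum_ite_eq', Finset.mem_univ, if_true] at this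
    refine this.congr fun j => ?_
    simp only [Function.comp, ← j.k0, sub_add_cancel]
    exact (j.gl.e0 hA hB j.hx j.hy b c).symm) (tendsto_pi_nhds.2 fun i => tendsto_pi_nhds.2
      fun c => by
        have := tendsto_finsetSum Finset.univ fun e _ => ((ld (.inl (i, e))).add
          (((cV_cont i e).tendsto _).comp l1)).mul (((bV_cont e c).tendsto _).comp l1)
        simp only [zero_add] at this
        exact this.congr fun j => (j.e1 h0 t i c).symm) u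
  have Le := fun b i => (tendsto_pi_nhds.1 (tendsto_pi_nhds.1 L b) i).norm
  have ng : ∀ (j : Cf M a r1 Rs A B) (f : Sm (on j.O)), ‖fv (-f) j.y‖ = ‖fv f j.y‖ := fun j f =>
    (congrArg norm (map_neg (evO j.y) f)).trans (norm_neg _)
  have a1 := (Le 0 0).congr fun j => ng j _
  have a2 := Le 0 3
  have a3 := (Le 2 0).congr fun j => ng j _
  have a4 := Le 2 2
  have a5 := ((ld (.inr 8)).congr fun j => (j.ps h0 t).1.symm).norm
  have a6 := ((ld (.inr 12)).congr fun j => (j.ps h0 t).2.1.symm).norm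
  have a7 := (((ld (.inr 10)).add ((P2_cont.tendsto _).comp l1)).congr fun j =>
    (j.ps h0 t).2.2.symm).norm
  have p := norm_pos_iff.2 (P2_ne rl w8)
  simp only [Matrix.one_apply, Fin.reduceEq, if_true, if_false, norm_one, norm_zero, zero_add]
    at a1 a2 a3 a4 a5 a6 a7
  filter_upwards [tendsto_const_nhds.eventually_lt (a1.const_mul 2) (show (1 : ℝ) < _ by norm_num),
    a1.eventually_lt tendsto_const_nhds one_lt_two, tendsto_const_nhds.eventually_lt a7 p,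
    tendsto_const_nhds.eventually_lt a4 one_half_lt_one,
    ((a2.mul a3).const_mul 10).eventually_lt a1 (by norm_num),
    (((a2.pow 2).mul a6).const_mul 10).eventually_lt ((a1.pow 2).mul a7) (by simpa using p),
    (((a3.pow 2).mul a5).const_mul 10).eventually_lt a7 (by simpa using p),
    ((a5.mul a6).const_mul 10).eventually_lt (a7.pow 2) (by simpa using pow_pos p 2), an]
    with j k1 k2 k3 k4 k5 k6 k7 k8 k9
  exact ⟨⟨k1.le, k2.le, norm_pos_iff.1 k3, k4.le, k5.le, k6.le, k7.le, k8.le⟩, k9⟩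

/-- **The two frames are close.** -/
theorem cz_pt (h0 : 0 < M) (h1 : 0 < r1) (t : IsTh M M a A B) : ∃ δ > 0,
    ∀ j : Cf M a r1 Rs A B, |j.δ| < δ → j.Z ∧ An j.x := by
  have h : ∀ᶠ j in comap (Cf.δ : Cf M a r1 Rs A B → ℝ) (𝓝 0), j.Z ∧ An j.x :=
    mem_iff_ultrafilter.2 fun U hU => cz_lim h0 h1 t U (map_le_iff_le_comap.2 hU)
  obtain ⟨δ, hδ, h⟩ := Metric.eventually_nhds_iff.1 (eventually_comap.1 h)
  exact ⟨δ, hδ, fun j e => h (by rwa [Real.dist_eq, sub_zero]) j rfl⟩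

end Vale.Agent.P354Z
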