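import Vale.Agent.P354Z.Boc
import Vale.Agent.P354XD.Hen

/-!
Two close transverse frames differ by a boost and a spin; the comparison of the jets.
-/

open Filter

noncomputable section

namespace Vale.Agent.P354Z

open Vale.Agent.P354XG Vale.Agent.P354XG.Geo Vale.Agent.P354XD Vale.Agent.P354XR Vale.Agent.P354XI
open Vale.Agent.P354YA (etG)

section alg
variable {A : Type} [CommRing A] [Algebra ℂ A] {S : Geo A} {F F' : Fr A} {al be a b q qi : A}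

/-- The polynomial which decides the uniqueness. -/
def un {A : Type} [CommRing A] (x0 x2 x4 a b : A) : A :=
  (3 * x2 * (1 + 2 * a * b) + a ^ 2 * x4 * (1 + a * b)) *
    (3 * x2 * (1 + 3 * a * b + 2 * a ^ 2 * b ^ 2) + b ^ 2 * x0) - x0 * x4 * (1 + a * b) ^ 3

theorem bq_of (h : S.Is) (N : F.WN S) (N' : F'.WN S) (t1 : F.p1 S = 0) (t3 : F.p3 S = 0)
    (t1' : F'.p1 S = 0) (t3' : F'.p3 S = 0) (h1 : -S.dot F'.l F.n * be = 1)
    (ha : a = be * S.dot F'.l F.m) (h2 : S.dot F'.m (F.rn S a).mb * qi = 1)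
    (hb : b = S.c (-(qi * S.dot F'.m F.n))) (u : IsUnit (un (F.p0 S) (F.p2 S) (F.p4 S) a b)) :
    Bq S (-S.dot F'.l F.n) be (S.dot F'.m F.mb) ∧
      F' = F.bo S (-S.dot F'.l F.n) be (S.dot F'.m F.mb) := by
  obtain ⟨e3, e⟩ := Fr.decomp h N.nl N'.nl h1 ha h2
  rw [← hb] at e
  have p := Fr.p_bo (S := S) (F := (F.rn S a).rl S b) h1 e3
  rw [← e, t1', t3'] at p
  generalize hq : S.dot F'.m (F.rn S a).mb = q at *
  generalize hl : -S.dot F'.l F.n = al at *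
  have z1 : ((F.rn S a).rl S b).p1 S = 0 := by
    linear_combination -(be * S.c q) * p.2.1 - ((F.rn S a).rl S b).p1 S * (q * S.c q * h1 + e3)
  have z3 : ((F.rn S a).rl S b).p3 S = 0 := by
    linear_combination -(al * q) * p.2.2.2.1 - ((F.rn S a).rl S b).p3 S * (q * S.c q * h1 + e3)
  simp only [(N.nl.rn h a).p_rl h, N.nl.p_rn h, t1, t3] at z1 z3
  have z := Fr.rot_uniq (x0 := F.p0 S) (x2 := F.p2 S) (x4 := F.p4 S) (a := a) (b := b)
    (by linear_combination z1) (by linear_combination z3) u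
  rw [z.1, z.2, Fr.rn_zero, Fr.rl_zero] at e
  rw [z.1, Fr.rn_zero] at hq
  have v := h.vertH.dot
  have w := h.vertHb.dot
  rw [hq]
  refine ⟨⟨h1, ?_, e3, ?_, ?_, ?_⟩, e⟩
  · rw [← hl, map_neg, h.c_dot, N'.c_l, N.c_n]
  · rw [← hl]; simp [v, N'.H_l, N.H_n, dot_neg_right]
  · rw [← hq]; simp [v, N'.H_m, N.H_mb h, dot_neg_right]
  · rw [← hq]; simp [w, N'.Hb_m, N.Hb_mb h, dot_neg_left]

/-- The inverse change. -/
theorem Bq.symm (b : Bq S al be q) (h : S.Is) :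
    Bq S be al (S.c q) ∧ (F.bo S al be q).bo S be al (S.c q) = F := by
  have u := (b.wa h).inv b.h1
  have v := b.wq.inv b.h3
  refine ⟨⟨(mul_comm _ _).trans b.h1, ?_, by rw [h.cc, mul_comm, b.h3], u.H, v.H, v.Hb⟩, ?_⟩
  · have := congrArg S.c b.h1
    rw [map_mul, map_one, b.h2] at this
    linear_combination be * this - S.c be * b.h1
  · cases F
    simp only [Fr.bo, smul_smul, h.cc, mul_comm be, mul_comm (S.c q), b.h1, b.h3, one_smul]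

end alg

theorem un_ne {x0 x2 x4 a b : ℂ} (h2 : x2 ≠ 0) (u : 10 * ‖a * b‖ ≤ 1)
    (s : 10 * ‖a ^ 2 * x4‖ ≤ ‖x2‖) (t : 10 * ‖b ^ 2 * x0‖ ≤ ‖x2‖)
    (w : 10 * ‖x0 * x4‖ ≤ ‖x2‖ ^ 2) : un x0 x2 x4 a b ≠ 0 := by
  have p := norm_pos_iff.2 h2
  have e : un x0 x2 x4 a b = x2 ^ 2 * ((3 + (6 * (a * b) + a ^ 2 * x4 / x2 * (1 + a * b))) *
      (3 + (9 * (a * b) + 6 * (a * b * (a * b)) + b ^ 2 * x0 / x2)) -
      x0 * x4 / x2 ^ 2 * (1 + a * b) ^ 3) := by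
    rw [un]; field_simp; ring
  have s' : ‖a ^ 2 * x4 / x2‖ ≤ 1 / 10 := by rw [norm_div, div_le_iff₀ p]; linarith
  have t' : ‖b ^ 2 * x0 / x2‖ ≤ 1 / 10 := by rw [norm_div, div_le_iff₀ p]; linarith
  have w' : ‖x0 * x4 / x2 ^ 2‖ ≤ 1 / 10 := by
    rw [norm_div, norm_pow, div_le_iff₀ (by positivity)]; linarith
  have u' : ‖a * b‖ ≤ 1 / 10 := by linarith
  rw [e]
  generalize a * b = y, a ^ 2 * x4 / x2 = s1, b ^ 2 * x0 / x2 = t1, x0 * x4 / x2 ^ 2 = w1 at *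
  have k1 : ‖1 + y‖ ≤ 11 / 10 := (norm_add_le _ _).trans (by rw [norm_one]; linarith)
  have k2 : ‖6 * y + s1 * (1 + y)‖ ≤ 6 * (1 / 10) + 1 / 10 * (11 / 10) := by
    refine (norm_add_le _ _).trans ?_
    rw [norm_mul, norm_mul, Complex.norm_ofNat]
    gcongr
  have k3 : ‖9 * y + 6 * (y * y) + t1‖ ≤ 9 * (1 / 10) + 6 * (1 / 10 * (1 / 10)) + 1 / 10 := by
    refine norm_add₃_le.trans ?_
    rw [norm_mul, norm_mul, norm_mul, Complex.norm_ofNat, Complex.norm_ofNat]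
    gcongr
  have k4 : ‖w1 * (1 + y) ^ 3‖ ≤ 1 / 10 * (11 / 10) ^ 3 := by
    rw [norm_mul, norm_pow]
    gcongr
  refine mul_ne_zero (pow_ne_zero _ h2) fun z => ?_
  generalize 6 * y + s1 * (1 + y) = α, 9 * y + 6 * (y * y) + t1 = β at *
  have k5 : 3 - ‖α‖ ≤ ‖3 + α‖ := by simpa using norm_sub_norm_le (3 : ℂ) (-α)
  have k6 : 3 - ‖β‖ ≤ ‖3 + β‖ := by simpa using norm_sub_norm_le (3 : ℂ) (-β)
  rw [← sub_eq_zero.1 z, norm_mul] at k4
  nlinarith [mul_le_mul (show 2 ≤ ‖3 + α‖ by linarith) (show 1 ≤ ‖3 + β‖ by linarith) one_pos.le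
    (norm_nonneg _)]

/-- The closeness of two frames in terms of the products A = l' n, X = l' m, Y = m' n, Q = m' mb
and of the Weyl scalars of the first frame; all conditions are invariant along the fibres. -/
structure Cz (Λ : ℝ) (A X Y Q x0 x2 x4 : ℂ) : Prop where
  lo : 1 ≤ Λ * ‖A‖
  hi : ‖A‖ ≤ Λ
  ne : x2 ≠ 0
  hq : 1 / 2 ≤ ‖Q‖
  u : 10 * (‖X‖ * ‖Y‖) ≤ ‖A‖
  s : 10 * (‖X‖ ^ 2 * ‖x4‖) ≤ ‖A‖ ^ 2 * ‖x2‖
  t : 10 * (‖Y‖ ^ 2 * ‖x0‖) ≤ ‖x2‖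
  w : 10 * (‖x0‖ * ‖x4‖) ≤ ‖x2‖ ^ 2

section fam
variable {J : Type} {G : Filter (J × E6)} [Loc G] {S : Geo (Sm G)} {F F' : Fr (Sm G)} {Λ : ℝ}

/-- F and F' are close transverse frames. -/
structure Cm (S : Geo (Sm G)) (F F' : Fr (Sm G)) (Λ : ℝ) : Prop where
  is : S.Is
  c : ∀ f, S.c f = cj f
  N : F.WN S
  N' : F'.WN S
  t1 : F.p1 S = 0
  t3 : F.p3 S = 0
  t1' : F'.p1 S = 0
  t3' : F'.p3 S = 0
  one : 1 ≤ Λ
  cn : ∀ᶠ p in G, Cz Λ (rep (S.dot F'.l F.n) p) (rep (S.dot F'.l F.m) p) (rep (S.dot F'.m F.n) p)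
    (rep (S.dot F'.m F.mb) p) (rep (F.p0 S) p) (rep (F.p2 S) p) (rep (F.p4 S) p)

theorem Cm.bq (k : Cm S F F' Λ) : ∃ al be q, Bq S al be q ∧ F' = F.bo S al be q ∧
    ∀ᶠ p in G, ‖rep al p‖ ≤ Λ ∧ ‖rep be p‖ ≤ Λ ∧ ‖rep q p‖ = 1 := by
  have a0 : ∀ {A X Y Q x0 x2 x4 : ℂ}, Cz Λ A X Y Q x0 x2 x4 → 0 < ‖A‖ := fun c =>
    pos_of_mul_pos_left (one_pos.trans_le (mul_comm Λ _ ▸ c.lo)) (by linarith [k.one])
  have r1 := (rs_rep (S.dot F'.l F.n)).neg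
  obtain ⟨be, h1⟩ := (r1.unit (k.cn.mono fun p c =>
    neg_ne_zero.2 (norm_pos_iff.1 (a0 c)))).exists_right_inv
  have rb := r1.of_mul h1
  have ra := rb.mul (rs_rep (S.dot F'.l F.m))
  have e : S.dot F'.m (F.rn S (be * S.dot F'.l F.m)).mb =
      S.dot F'.m F.mb + cj (be * S.dot F'.l F.m) * S.dot F'.m F.n := by
    simp only [Fr.rn, dot_add_right, dot_smul_right, k.c]
  have rq := (rs_rep (S.dot F'.m F.mb)).add (ra.cj.mul (rs_rep (S.dot F'.m F.n)))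
  rw [← e] at rq
  have ab : ∀ {A X Y Q x0 x2 x4 : ℂ}, Cz Λ A X Y Q x0 x2 x4 → 10 * (‖(-A)⁻¹ * X‖ * ‖Y‖) ≤ 1 :=
    fun {A X Y _ _ _ _} c => by
      have := (div_le_one (a0 c)).2 c.u
      rw [norm_mul, norm_inv, norm_neg]
      exact le_of_eq_of_le (by ring) this
  obtain ⟨qi, h2⟩ := (rq.unit (k.cn.mono fun p c z => by
    have := congrArg norm (eq_neg_of_add_eq_zero_left z)
    rw [norm_neg, norm_mul, Complex.norm_conj] at this
    linarith [ab c, c.hq])).exists_right_inv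
  have n1 := (rq.mul rq.cj).eq
    ((k.c _ ▸ (Fr.decomp k.is k.N.nl k.N'.nl h1 rfl h2).1 : _ * cj _ = 1) ▸ rs_one)
  have rb' := ((rq.of_mul h2).mul (rs_rep (S.dot F'.m F.n))).neg.cj
  rw [← k.c] at rb'
  have r0 := rs_rep (F.p0 S)
  have r2 := rs_rep (F.p2 S)
  have r4 := rs_rep (F.p4 S)
  have o := rs_one (G := G)
  have ru := (((((rs_num 3).mul r2).mul (o.add (((rs_num 2).mul ra).mul rb'))).add
    (((ra.pow 2).mul r4).mul (o.add (ra.mul rb')))).mul ((((rs_num 3).mul r2).mul ((o.add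
    (((rs_num 3).mul ra).mul rb')).add (((rs_num 2).mul (ra.pow 2)).mul (rb'.pow 2)))).add
    ((rb'.pow 2).mul r0))).sub ((r0.mul r4).mul ((o.add (ra.mul rb')).pow 3))
  have one : ∀ {z : ℂ}, z * starRingEnd ℂ z = 1 → ‖z‖ = 1 := fun {z} e => by
    have := congrArg norm e
    rw [norm_mul, Complex.norm_conj, norm_one] at this
    nlinarith [norm_nonneg z]
  have nb : ∀ {z : ℂ} (y : ℂ), ‖z‖ = 1 → ‖starRingEnd ℂ (-(z⁻¹ * y))‖ = ‖y‖ := fun y e => by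
    rw [Complex.norm_conj, norm_neg, norm_mul, norm_inv, e, inv_one, one_mul]
  obtain ⟨b, eq⟩ := bq_of k.is k.N k.N' k.t1 k.t3 k.t1' k.t3' h1 rfl h2 rfl (ru.unit
    ((k.cn.and n1).mono fun p c => by
      have q1 := nb (rep (S.dot F'.m F.n) p) (one c.2)
      refine un_ne c.1.ne ?_ ?_ ?_ (by rw [norm_mul]; exact c.1.w)
      · rw [norm_mul, q1]
        exact ab c.1
      · have := (div_le_iff₀' (pow_pos (a0 c.1) 2)).2 c.1.s
        rw [norm_mul, norm_pow, norm_mul, norm_inv, norm_neg]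
        exact le_of_eq_of_le (by ring) this
      · rw [norm_mul, norm_pow, q1]
        exact c.1.t))
  have r5 := rs_rep (S.dot F'.m F.mb)
  refine ⟨_, _, _, b, eq, ?_⟩
  filter_upwards [k.cn, r1, rb, (r5.mul r5.cj).eq ((k.c _ ▸ b.h3 : _ * cj _ = 1) ▸ rs_one)]
    with p c e1 e2 e3
  refine ⟨by rw [e1, norm_neg]; exact c.hi, ?_, one e3⟩
  rw [e2, norm_inv, norm_neg, inv_eq_one_div, div_le_iff₀ (a0 c)]
  exact c.lo

/-- **The comparison of the jets.** -/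
theorem Cm.eta (k : Cm S F F' Λ) (n : ℕ) : ∀ᶠ p in G,
    etG (F'.ghp S) n p ≤ (Λ ^ (n + 4)) ^ 2 * etG (F.ghp S) n p ∧
    etG (F.ghp S) n p ≤ (Λ ^ (n + 4)) ^ 2 * etG (F'.ghp S) n p := by
  obtain ⟨al, be, q, b, rfl, e⟩ := k.bq
  have a1 := e.mono fun _ c => c.1
  have a2 := e.mono fun _ c => c.2.1
  have a3 := e.mono fun _ c => c.2.2.le.trans k.one
  have a4 : ∀ᶠ p in G, ‖rep (S.c q) p‖ ≤ Λ := (a3.and (rep_cj q)).mono fun p c => by
    rw [k.c, c.2, Complex.norm_conj]; exact c.1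
  have u := etG_bo k.is k.N' (b.symm (F := F) k.is).1 k.one (fun i => by
    fin_cases i
    exacts [a2, a1, a4, by simpa [bf, k.is.cc] using a3]) n
  rw [(b.symm k.is).2] at u
  exact (etG_bo k.is k.N b k.one (fun i => by fin_cases i; exacts [a1, a2, a3, a4]) n).and u

end fam

end Vale.Agent.P354Z
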