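import Vale.Agent.P354Z.Trn
import Vale.Agent.P354MG.Asm
import Vale.Agent.P354XD.None
import Vale.Agent.P354CN.Kcn
import Vale.Agent.P354CS.Pre

/-!
The row ETA of the assembly of the chart.
-/

open scoped ContDiff
open Set Filter Topology

noncomputable section

namespace Vale.Agent.P354Z

open Vale.Agent.P354XG Vale.Agent.P354XD Vale.Agent.P354XR Vale.Agent.P354XI Vale.Agent.P354MG
open Vale.Agent.P354XO (Cht Om cn_om)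
open Vale.Agent.P354CQ (s6 hp' P6 ok_num)

theorem fx_num {f : Fx} (h : f.Ok) : |f.z.a| < f.z.M ∧ 0 < f.a.r1 :=
  have k := h.nu.ok ⟨0, 0, 1, fun _ => 1⟩ ⟨0, 10 * f.z.R1, 10 * (10 * f.z.R1)⟩ ⟨1, 1⟩ le_rfl
    (fun _ => le_rfl) le_rfl le_rfl one_pos le_rfl le_rfl
  ⟨k.aM, (ok_num k).1⟩

/-- ETA with the order m of the closeness of the metric. -/
def ETAm : Prop := ∀ f : Fx, f.Ok → ∃ Λ ≥ (1 : ℝ), ∃ m, ∀ Rs, ∃ e > 0, ∀ v q Rb F e0,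
  q.c.Rs = Rs → P354MG.Ge f v q Rb → P354MG.Cz f v q e → (∀ x ∈ f.X1 v q,
    P354XE.Bd m (f.gE v q - kE v.M v.a v.A v.B) (pj (f.ac v q x)) e) →
  Et f v q (f.E v q F e0) Λ

theorem eta_ok (geo : GEO) : ETAm := fun f hf => by
  obtain ⟨ha, h1⟩ := fx_num hf
  have h0 := (abs_nonneg _).trans_lt ha
  obtain ⟨n1, n2⟩ := none_ok f.z.M f.z.a f.a.r1 ha h1
  obtain ⟨m, n2⟩ := n2 0
  refine ⟨16, by norm_num, m, fun Rs => ?_⟩
  obtain ⟨δ, hδ, cmp⟩ := eta_cmp h0 h1 hf.nu.th (Rs + 1)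
  obtain ⟨e1, he1, n1⟩ := n1 (Rs + 1)
  obtain ⟨C, e2, he2, n2⟩ := n2 (Rs + 1)
  obtain ⟨e3, he3, ku⟩ := ku_of f.z.M f.z.a f.a.r1 (Rs + 1) h0.ne' h1
  have p : 0 < |C| + 1 := by positivity
  obtain ⟨e, he, l1, l2, l3, l4⟩ : ∃ e > 0, e ≤ e1 ∧ e ≤ e2 ∧ e ≤ e3 ∧ (|C| + 1) * e ≤ δ :=
    ⟨min (min e1 e2) (min e3 (δ / (|C| + 1))), by positivity,
      (min_le_left _ _).trans (min_le_left _ _), (min_le_left _ _).trans (min_le_right _ _),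
      (min_le_right _ _).trans (min_le_left _ _),
      (le_div_iff₀' p).1 ((min_le_right _ _).trans (min_le_right _ _))⟩
  have l5 : e ≤ δ := by nlinarith [abs_nonneg C]
  refine ⟨e, he, fun v q Rb F e0 eR g c b n x hx w hw w' hw' u an => ?_⟩
  subst eR
  obtain ⟨ch, g2, -, rg, -⟩ := geo f v q Rb hf g
  obtain ⟨-, cP, -, -, -, inv, -⟩ := P354CS.pre f.z.M f.z.a f.A f.B hf.nu.sA hf.nu.sB
  have su := g.su
  have co : Cone (f.O1 v q) := (rg F e0).co1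
  have s1 : f.X1 v q ⊆ f.X0 v q := fun y hy => ⟨hy.1.1, hy.2⟩
  have eP : ∀ y, f.ch v q (f.P y) = f.ac v q y := fun y => congrArg (f.ac v q) (inv y).2.2.1
  have k1 := (su.nm.k1 su.e0).2.2.2
  have rad : ∀ y ∈ f.X1 v q, f.a.r1 + q.k ≤ y.2.1 ∧ y.2.1 < q.c.Rs ∧
      |(f.ac v q y).2.1 - y.2.1| ≤ q.k := fun y hy =>
    ⟨su.nm.r1.trans hy.1.1.1.1.le, hy.1.2, su.r_near (P354CQ.of1 hy) hy.1.2⟩
  have k0 : 0 ≤ q.k := (su.nm.k1 su.e0).1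
  have cn := cn_om su.op1 fun p hp => h1.trans_le (su.num.2.1.trans hp.1.1.1.le)
  have c1 := (cP.mono cn fun y hy => cn.pos y hy).cn
  have vac : ∀ y ∈ f.O1 v q, VacAt (f.gE v q) (pj y) := by
    rintro _ ⟨y, hy, rfl⟩
    obtain ⟨W, l, k⟩ := (g2 y (s1 hy)).2.2
    exact ⟨W, l.isOpen, k, l.met, l.vac⟩
  have rO : ∀ y ∈ f.X1 v q, f.a.r1 ≤ (f.ac v q y).2.1 ∧ (f.ac v q y).2.1 ≤ q.c.Rs + 1 :=
    fun y hy => by
      obtain ⟨a1, a2, a3⟩ := rad y hy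
      constructor <;> linarith [abs_le.1 a3, show q.k ≤ 1 / 1000 from k1]
  have mono : ∀ {k T y} {d d' : ℝ}, P354XE.Bd k T y d → d ≤ d' → P354XE.Bd k T y d' :=
    fun h l i hi v w => (h i hi v w).trans (by gcongr)
  obtain ⟨-, wn, t1, t3, -⟩ := n1 _ _ v.M v.a v.A v.B co vac c.th (c.par.trans l1) (by
    rintro _ ⟨y, hy, rfl⟩
    exact ⟨(rO y hy).1, (rO y hy).2, mono (c.gE y hy) l1⟩)
  have G : Gl f.z.M f.z.a (f.U v q) (f.P '' f.X1 v q) (f.O1 v q) (f.ch v q) v.g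
      (fE (f.O1 v q) (f.gE v q) f.z.M v.M v.a) := by
    refine ⟨ch, image_mono s1, ?_, c1.op, co, fun y hy => ?_, wn⟩
    · rintro _ ⟨y, hy, rfl⟩
      exact ⟨_, ⟨y, hy, rfl⟩, eP y⟩
    obtain ⟨z, hz, a⟩ := ex_unit (c1.pos y hy).2
    obtain ⟨y', hy', e'⟩ := c1.hom y hy _ (inv_ne_zero hz)
    obtain ⟨W, l, k⟩ := g.lv _ (g2 y' (s1 hy')).2.1
    have e2 : pj (P354XO.sc z⁻¹ y) = f.S (pj y') := e' ▸ (g2 y' (s1 hy')).1
    have e3 : (P354XO.sc z⁻¹ y).2.1 = y'.2.1 := e' ▸ rfl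
    have := P354CN.KU_sc _ _ _ _ (ku v.g _ e ((abs_of_pos he).trans_le l3)
      ⟨W, l.isOpen, e2 ▸ k, l.met, l.vac⟩ (by linarith [(rad y' hy').1])
      (by linarith [(rad y' hy').2.1]) a (e2 ▸ c.g y' hy')) z hz
    rwa [P354XO.sc_inv hz] at this
  have hx' := ch.eqv.hom _ ⟨x, s1 hx, rfl⟩ w hw
  have e1 : P354XO.sc (w' * w⁻¹) (f.ch v q (P354XO.sc w (f.P x))) = P354XO.sc w' (f.ac v q x) := by
    rw [ch.eqv.eqv _ ⟨x, s1 hx, rfl⟩ w hw, P354XO.sc_sc, inv_mul_cancel_right₀ hw, eP]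
  have := cmp _ _ _ _ _ _ v.M v.a G t1 t3 ?_ n _ hx' u _ (mul_ne_zero hw' (inv_ne_zero hw))
    (e1 ▸ co.hom _ ⟨x, hx, rfl⟩ _ hw') (e1 ▸ an)
  · rwa [e1] at this
  rintro _ ⟨y, hy, rfl⟩ o u
  have e2 := (g2 y (s1 hy)).1
  rw [eP] at o u
  refine ⟨⟨by linarith [(rad y hy).1, show (f.P y).2.1 = y.2.1 from rfl],
    by linarith [(rad y hy).2.1, show (f.P y).2.1 = y.2.1 from rfl]⟩, c.par.trans l5,
    e2 ▸ mono (c.g y hy) l5, ?_, ?_, ?_, fun i => ?_⟩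
  · have := (c.nid y hy).d 0 (by norm_num)
    rw [norm_iteratedFDeriv_zero, ← e2] at this
    exact this.trans l5
  · rw [eP]
    exact (rad y hy).2.2.trans (c.k.trans l5)
  · have e3 : (s6 (-f.A) (-f.B) (f.P y)).2.2 = y.2.2 := congrArg (·.2.2) (inv _).1
    have e4 : ‖(f.P y).2.2‖ = ‖y.2.2‖ := by
      simp [Fx.P, P354CQ.ph, P354CQ.ki, ← lsh_s6, P354BO.lsh, Prod.norm_def, P354BO.pe_norm]
    rw [eP, e3, e4]
    exact (su.box.xi' (x := y) ⟨⟨hy.1.1.1, hy.1.2⟩, hy.2⟩).trans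
      (mul_le_mul_of_nonneg_right (c.k.trans l5) (norm_nonneg _))
  · have := n2 _ _ v.M v.a v.A v.B co vac c.th (c.par.trans l2) c.ok _ o
      (by rw [An, u]; norm_num) (rO y hy).1 (rO y hy).2 e ⟨he.le, l2⟩ (b y hy) i
    rw [q2, ← sq_abs (C * e), abs_mul, abs_of_pos he] at this
    rw [eP]
    exact (abs_le_of_sq_le_sq' this (by positivity)).2.trans (by nlinarith)

end Vale.Agent.P354Z
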