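import Vale.Agent.P354Z.Skel

/-!
The four blocks give MAIN.
-/

open Set Filter Topology

noncomputable section

namespace Vale.Agent.P354Z

open Vale.Agent.P354I (rm rp)
open Vale.Agent.P354XD (pj)
open Vale.Agent.P354YA (sch st_restr Pr)

variable {Lk : Link} {FT : Table}

theorem num {Cl Cc e d e0 : ℝ} (h1 : 1 ≤ Cl) (h2 : 0 ≤ Cc) (he : 0 < e)
    (h3 : e ≤ 1 / (4 * Cl ^ 3 * (Cc + 1))) (h4 : d ≤ e / (4 * Cl ^ 2 * (Cc + 1)))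
    (h5 : e0 ≤ Cl * d) (hd : 0 ≤ d) : Cl * (Cc * (e0 + (Cl * e) ^ 2) + d) ≤ e / 2 := by
  have p : 0 < Cl := by linarith
  rw [le_div_iff₀ (by positivity)] at h3 h4
  have a1 : Cl * (Cc * e0) ≤ Cl * (Cc * (Cl * d)) := by gcongr
  have a2 : Cl * d ≤ Cl ^ 2 * d := by gcongr; nlinarith
  have a3 : e * (e * (4 * Cl ^ 3 * (Cc + 1))) ≤ e * 1 := by gcongr
  have a4 : 0 ≤ Cl ^ 3 * e ^ 2 := by positivity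
  nlinarith

/-- **MAIN from the four blocks.** -/
theorem main_of (hZ : EXZ) (hm : MONO FT) (hC : CHART Lk) (hO : CORE FT) (hB : BACK Lk FT)
    (hU : OUT Lk FT) : sch.MAIN := by
  intro M a kc ha h
  obtain ⟨s, hs, δ, hδ, hU⟩ := hU
  refine ⟨s, hs, δ, hδ, fun r1 hr θ hθ θ1 h1 R0 => ?_⟩
  have d0 : 0 < min (1 / 10 : ℝ) (1 / (|R0| + 1)) := by positivity
  have d1 : R0 * min (1 / 10 : ℝ) (1 / (|R0| + 1)) ≤ 1 := by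
    have := (le_div_iff₀ (by positivity)).1 (min_le_right (1 / 10 : ℝ) (1 / (|R0| + 1)))
    nlinarith [le_abs_self R0]
  have d2 := min_le_left (1 / 10 : ℝ) (1 / (|R0| + 1))
  generalize min (1 / 10 : ℝ) (1 / (|R0| + 1)) = del at d0 d1 d2
  obtain ⟨m1, hC⟩ := hC M a ((rm M a + r1) / 2) θ θ1 del
  obtain ⟨m2, hB⟩ := hB kc M a ((rm M a + r1) / 2) θ θ1 del
  obtain ⟨m3, hU⟩ := hU M a ((rm M a + r1) / 2) θ θ1 del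
  obtain ⟨R1, hR, κ, ok⟩ := hZ M a ((rm M a + r1) / 2) θ θ1 del (max (max m1 m2) (max m3 R0)) ha h
    ⟨by linarith [hr.1], by linarith [hr.1, hr.2]⟩ hθ h1 d0 d2
  simp only [ge_iff_le, max_le_iff] at hR
  replace hC := hC R1 hR.1.1 κ ok
  replace hB := hB R1 hR.1.2 κ ok
  obtain ⟨a1, hC⟩ := hC
  obtain ⟨R, hR1, hU⟩ := hU R1 hR.2.1 κ ok a1
  replace hU := hU r1 (show (rm M a + r1) / 2 < r1 by linarith [hr.1])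
  set z : Z1 := ⟨M, a, (rm M a + r1) / 2, θ, θ1, del, R1, κ⟩ with hz
  refine ⟨R, hR.2.2.trans hR1, fun N ε hε => ?_⟩
  obtain ⟨nB, NB, k0, hB⟩ := hB
  obtain ⟨nU, NU, hU⟩ := hU N ε hε
  obtain ⟨N1, hO⟩ := hO z a1 (max nB nU)
  obtain ⟨b, hb, k1, hk1, Lc, Rc, hC⟩ := hC (max N1 (max NB NU))
  obtain ⟨k, hk0, hk⟩ : ∃ k, k0 ≤ k ∧ k1 ≤ k := ⟨max k0 k1, by simp⟩
  obtain ⟨LB, RB, hB⟩ := hB a1 b (by simp [hb]) k hk0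
  obtain ⟨LU, RU, hU⟩ := hU b (by simp [hb])
  obtain ⟨Lm, hO⟩ := hO b (by simp [hb])
  obtain ⟨L, hL⟩ : ∃ L, Lc ≤ L ∧ LB ≤ L ∧ LU ≤ L ∧ Lm ≤ L :=
    ⟨max (max Lc LB) (max LU Lm), by simp⟩
  obtain ⟨K, Rm, hO⟩ := hO L hL.2.2.2
  obtain ⟨R2, h2⟩ : ∃ R2, Rc ≤ R2 ∧ RB ≤ R2 ∧ RU ≤ R2 ∧ Rm ≤ R2 :=
    ⟨max (max Rc RB) (max RU Rm), by simp⟩
  obtain ⟨κB, kB, hB⟩ := hB L hL.2.1 ⟨K, R2, 10 * R2⟩ h2.2.1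
  obtain ⟨κU, kU, hU⟩ := hU L hL.2.2.1 ⟨K, R2, 10 * R2⟩ h2.2.2.1
  have k0 := lt_min kB kU
  obtain ⟨d, co, b1, hC⟩ := hC L hL.1 ⟨K, R2, 10 * R2⟩ h2.1 le_rfl _ k0
  obtain ⟨b2, hB⟩ := hB _ ⟨k0, min_le_left _ _⟩ d co
  obtain ⟨b3, hU⟩ := hU _ ⟨k0, min_le_right _ _⟩ d co
  obtain ⟨ε0, hε0, Cc, hCc, hO⟩ := hO R2 h2.2.2.2 _ d co
  obtain ⟨Rb, h3⟩ : ∃ Rb, b1 ≤ Rb ∧ b2 ≤ Rb ∧ b3 ≤ Rb ∧ R1 + 2 ≤ Rb :=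
    ⟨max (max b1 b2) (max b3 (R1 + 2)), by simp⟩
  obtain ⟨E1, hE1, Cl, hCl, mC, hC⟩ := hC Rb h3.1
  obtain ⟨EB, hEB, hB⟩ := hB Rb h3.2.1
  obtain ⟨eU, heU, mU, hU⟩ := hU Rb h3.2.2.1 Cl hCl
  have M0 : 0 < M := (abs_nonneg a).trans_lt h
  have rs : R1 + 1 ≤ 10 * R2 := by
    have u1 : 10 * M + 10 ≤ R1 := co.R1
    have u2 : 10 * R1 ≤ R2 := co.R2
    linarith
  obtain ⟨o1, o2, o3⟩ := ok.ok _ rs Rb h3.2.2.2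
  have o4 : 3 / 2 * θ1 ≤ 2 * z.θ1 := by
    show _ ≤ 2 * θ1
    linarith
  refine ⟨(⟨z.pm (10 * R2) Rb, κ, 10 * R2⟩ : Pr),
    ⟨rfl, rfl, rfl, o1, o2, ⟨o1.1, hR.2.2, h3.2.2.2, d1⟩, o4.trans o3⟩, k, hk1.trans hk, L, 7 / 5,
    by norm_num, min E1 EB, lt_min hE1 hEB, fun e1 he1 => ?_⟩
  obtain ⟨eB, heB, mB, hB⟩ := hB Cl hCl e1 ⟨he1.1, he1.2.trans (min_le_right _ _)⟩
  have p : 0 < Cl := by linarith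
  obtain ⟨e, he, e2, e3, e4, e5, e6⟩ : ∃ e > 0, e ≤ E1 ∧ e ≤ eB ∧ e ≤ eU ∧ e ≤ ε0 / Cl ∧
      e ≤ 1 / (4 * Cl ^ 3 * (Cc + 1)) :=
    ⟨min (min E1 eB) (min eU (min (ε0 / Cl) (1 / (4 * Cl ^ 3 * (Cc + 1))))), by positivity,
      by simp⟩
  refine ⟨e, he, max mC (max mB mU), min e (e / (4 * Cl ^ 2 * (Cc + 1))), by positivity,
    fun m hm' dd hd gc cg => ?_⟩
  simp only [ge_iff_le, max_le_iff, mem_Ioc, le_min_iff] at hm' hd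
  have key : ∀ Lv g, IsOpen Lv → IsLowerSet Lv → Lv.Nonempty →
      (∀ V ∈ Lv, z.St (10 * R2) Rb gc V g ∧ z.Bo (10 * R2) Rb k L e1 e V g) →
      ∃ E : Est, E.Lv = Lv ∧ (∀ n ≤ max nB nU, Inp Lk FT z Rb (cs z a1 b ⟨K, R2, 10 * R2⟩ d) L n
        gc g E (min κB κU) Cl e) ∧ ∀ x ∈ z.Zv (10 * R2) Rb Lv,
        P354YA.eta M a L g x ≤ (e / 2 * (1 + |x.1|) ^ (-(7 / 5) : ℝ)) ^ 2 := by
    intro Lv g l1 l2 l3 l4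
    obtain ⟨E, i, rfl, t, lk⟩ := hC e1 ⟨he1.1, he1.2.trans (min_le_left _ _)⟩ e ⟨he, e2⟩ m hm'.1
      dd ⟨hd.1, hd.2.1⟩ gc cg Lv g l1 l2 l3 fun V hV => ⟨(l4 V hV).1, fun x hx hs =>
        ⟨fun i hi => ((l4 V hV).2 x hx hs).1 i (hi.trans hk), ((l4 V hV).2 x hx hs).2⟩⟩
    have q0 : E.e0 ≤ Cl * e := t.e0.trans (by gcongr; exact hd.2.1)
    obtain ⟨q1, q2⟩ := hO E (Cl * e) i ⟨by positivity, by rwa [le_div_iff₀' p] at e5⟩ q0 t.dec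
    have q3 := num hCl hCc he e6 hd.2.2 t.e0 hd.1.le
    have q4 : 0 ≤ Cc * (E.e0 + (Cl * e) ^ 2) :=
      mul_nonneg hCc (add_nonneg i.near.e0 (sq_nonneg _))
    refine ⟨E, rfl, fun n hn => ⟨i, q0, t.dec, hm _ _ _ _ _ _ hn ?_ q2, lk⟩, fun x hx =>
      (t.dec' _ q4 q1 x hx).trans ?_⟩
    · nlinarith [hd.1]
    · have := hd.1
      gcongr
  refine ⟨fun V g t bo => ?_, fun g hg => ?_⟩
  · obtain ⟨E, lv, i, et⟩ := key (Iio V) g isOpen_Iio (isLowerSet_Iio V) ⟨V - 1, by simp⟩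
      fun W hW => ⟨⟨st_restr o1.1.is (le_of_lt hW) t.1, t.2⟩, fun x hx hV => bo x hx (hV.trans hW)⟩
    obtain ⟨u1, u2⟩ := hB e ⟨he, e3⟩ m hm'.2.1 dd ⟨hd.1, hd.2.1⟩ gc cg V g E t bo lv
      (i _ (le_max_left _ _))
    refine ⟨fun x hx hV => ?_, u2⟩
    have hx' : x ∈ z.Zv (10 * R2) Rb (Iio V) := ⟨hx, (add_zero _).symm.trans_lt hV⟩
    exact ⟨u1 x hx', et x hx'⟩
  · obtain ⟨E, lv, i, -⟩ := key univ g isOpen_univ isLowerSet_univ univ_nonempty fun W _ => hg W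
    exact hU e ⟨he, e4⟩ m hm'.2.2 dd ⟨hd.1, hd.2.1⟩ gc cg g E (fun V => (hg V).1) lv
      (i _ (le_max_right _ _))

end Vale.Agent.P354Z
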