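import Vale.Agent.P354Z.Cmc
import Vale.Agent.P354XR.Es3

/-!
The comparison of the jets of the Weyl scalars in the two charts.
-/

open scoped ContDiff
open Set Filter Topology

noncomputable section

namespace Vale.Agent.P354Z

open Vale.Agent.P354XG Vale.Agent.P354XG.Geo Vale.Agent.P354XD Vale.Agent.P354XR Vale.Agent.P354XI
open Vale.Agent.P354XE (Tw)
open Vale.Agent.P354XO (Cht b4 sc_ap)
open Vale.Agent.P354YA
open Vale.Agent.P354YO (IsTh)

section hom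
variable {O : Set E6} {x : E6}

theorem nrm_hom (c : Cone O) {u : Sm (on O)} (m n : ℝ) (hH : (hp _).H u = (m : ℂ) • u)
    (hB : (hp _).B u = (n : ℂ) • u) (hx : x ∈ O) (w : ℂ) :
    ‖fv u (P354XO.sc (Complex.exp w) x)‖ = Real.exp ((m + n) * w.re) * ‖fv u x‖ := by
  rw [fv_hom c hH hB hx, norm_mul, Complex.norm_exp]
  simp [add_mul]

theorem q2_homc {ι : Type} [Fintype ι] {X : ι → Der (Sm (on O))} (c : Cone O) {α β : ι → ℝ}
    (hH : ∀ a f, (hp _).H (X a f) = X a ((hp _).H f) + (α a : ℂ) • X a f)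
    (hB : ∀ a f, (hp _).B (X a f) = X a ((hp _).B f) + (β a : ℂ) • X a f)
    (h2 : ∀ a, |α a + β a| ≤ 2) (hx : x ∈ O) {w : ℂ} (hw : |w.re| ≤ 1) :
    ∀ (n : ℕ) (u : Sm (on O)) (p q k : ℝ), (hp _).H u = (p : ℂ) • u → (hp _).B u = (q : ℂ) • u →
      |p + q| ≤ k → q2 X (P354XO.sc (Complex.exp w) x) n u ≤ Real.exp (k + 2 * n) ^ 2 * q2 X x n u
  | 0, u, p, q, k, h1, h3, h4 => by
    rw [q2, q2, nrm_hom c p q h1 h3 hx, mul_pow]
    gcongr
    refine (le_abs_self _).trans ?_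
    rw [abs_mul]
    simpa using mul_le_mul h4 hw (abs_nonneg _) ((abs_nonneg _).trans h4)
  | n + 1, u, p, q, k, h1, h3, h4 => by
    rw [q2, q2, mul_add, Finset.mul_sum]
    refine add_le_add ((q2_homc c hH hB h2 hx hw n u p q (k + 2) h1 h3 (by linarith)).trans_eq ?_)
      (Finset.sum_le_sum fun a _ => (q2_homc c hH hB h2 hx hw n _ (p + α a) (q + β a) (k + 2)
        (by rw [hH, h1, Derivation.map_smul, Complex.ofReal_add, add_smul])
        (by rw [hB, h3, Derivation.map_smul, Complex.ofReal_add, add_smul]) ?_).trans_eq ?_)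
    · push_cast; ring_nf
    · rw [add_add_add_comm]
      exact (abs_add_le _ _).trans (add_le_add h4 (h2 a))
    · push_cast; ring_nf

/-- The squares of the jets of P0 and P4 along the frame F. -/
def et (O : Set E6) (S : Geo (Sm (on O))) (F : Fr (Sm (on O))) (n : ℕ) (y : E6) : ℝ :=
  q2 (f4 (F.ghp S)) y n (F.ghp S).P0 + q2 (f4 (F.ghp S)) y n (F.ghp S).P4

theorem et_eq {S : Geo (Sm (on O))} {F : Fr (Sm (on O))} (n : ℕ) (hx : x ∈ O) :
    et O S F n x = etG (F.ghp S) n ((), x) := by rw [et, etG, q2_eq _ hx, q2_eq _ hx]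

theorem wt_of {u : Sm (on O)} {D : Der (Sm (on O))} (m : ℤ) (h : D u = m * u) :
    D u = ((m : ℝ) : ℂ) • u := by
  rw [h, Complex.ofReal_intCast, Int.cast_smul_eq_zsmul, zsmul_eq_mul]

variable {g : Tw} {F F' : Fr (Sm (on O))} (c : Cone O) (h : (ge O g).Is) (N : F.WN (ge O g))
include c h N

theorem et_hom (hx : x ∈ O) {w : ℂ} (hw : |w.re| ≤ 1) (n : ℕ) :
    et O (ge O g) F n (P354XO.sc (Complex.exp w) x) ≤
      Real.exp (4 + 2 * n) ^ 2 * et O (ge O g) F n x := by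
  have s := N.is h
  have k := q2_homc (X := f4 (F.ghp (ge O g))) c (α := ![1, -1, 1, -1]) (β := ![1, -1, -1, 1])
    (fun a f => by
      fin_cases a
      exacts [(s.H_th f).trans (by simp [f4]; rfl),
        (s.H_tp f).trans (by simp [f4, sub_eq_add_neg]; rfl), (s.H_et f).trans (by simp [f4]; rfl),
        (s.H_ep f).trans (by simp [f4, sub_eq_add_neg]; rfl)])
    (fun a f => by
      fin_cases a
      exacts [(s.Hb_th f).trans (by simp [f4]; rfl),
        (s.Hb_tp f).trans (by simp [f4, sub_eq_add_neg]; rfl),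
        (s.Hb_et f).trans (by simp [f4, sub_eq_add_neg]; rfl),
        (s.Hb_ep f).trans (by simp [f4]; rfl)])
    (fun a => by fin_cases a <;> simp <;> norm_num) hx hw n
  rw [et, et, mul_add]
  exact add_le_add
    (k _ _ _ 4 (wt_of 4 (s.H_P0.trans (by simp))) (wt_of 0 (s.Hb_P0.trans (by simp))) (by simp))
    (k _ _ _ 4 (wt_of (-4) (s.H_P4.trans (by simp))) (wt_of 0 (s.Hb_P4.trans (by simp))) (by simp))

/-- The conditions are invariant along the fibres. -/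
theorem cz_hom (N' : F'.WN (ge O g)) {Λ : ℝ} (hx : x ∈ O) (w : ℂ)
    (z : Cz Λ (fv ((ge O g).dot F'.l F.n) x) (fv ((ge O g).dot F'.l F.m) x)
      (fv ((ge O g).dot F'.m F.n) x) (fv ((ge O g).dot F'.m F.mb) x) (fv (F.p0 (ge O g)) x)
      (fv (F.p2 (ge O g)) x) (fv (F.p4 (ge O g)) x)) {y : E6}
    (e : y = P354XO.sc (Complex.exp w) x) :
    Cz Λ (fv ((ge O g).dot F'.l F.n) y) (fv ((ge O g).dot F'.l F.m) y)
      (fv ((ge O g).dot F'.m F.n) y) (fv ((ge O g).dot F'.m F.mb) y) (fv (F.p0 (ge O g)) y)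
      (fv (F.p2 (ge O g)) y) (fv (F.p4 (ge O g)) y) := by
  have s := N.is h
  have v := h.vertH.dot
  have u := h.vertHb.dot
  have k : ∀ (f : Sm (on O)) (m n : ℤ), (ge O g).H f = m * f → (ge O g).Hb f = n * f →
      ‖fv f y‖ = Real.exp w.re ^ (m + n) * ‖fv f x‖ := fun f m n h1 h2 => by
    rw [e, nrm_hom c m n (wt_of m h1) (wt_of n h2) hx, ← Int.cast_add, mul_comm _ w.re,
      Real.exp_mul, Real.rpow_intCast]
  have e1 := k ((ge O g).dot F'.l F.n) 0 0 (by simp [v, N'.H_l, N.H_n, dot_neg_right])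
    (by simp [u, N'.rw.Hb_l h, N.rw.Hb_n h, dot_neg_right])
  have e2 := k ((ge O g).dot F'.l F.m) 2 0 (by simp [v, N'.H_l, N.H_m, two_mul])
    (by simp [u, N'.rw.Hb_l h, N.Hb_m, dot_neg_right])
  have e3 := k ((ge O g).dot F'.m F.n) 0 (-2) (by simp [v, N'.H_m, N.H_n, dot_neg_right])
    (by simp [u, N'.Hb_m, N.rw.Hb_n h, dot_neg_right, dot_neg_left, two_mul])
  have e4 := k ((ge O g).dot F'.m F.mb) 0 0 (by simp [v, N'.H_m, N.rw.H_mb h, dot_neg_right])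
    (by simp [u, N'.Hb_m, N.rw.Hb_mb h, dot_neg_left])
  have e5 := k (F.p0 (ge O g)) 4 0 (s.H_P0.trans (by simp; rfl)) (s.Hb_P0.trans (by simp))
  have e6 := k (F.p2 (ge O g)) 0 0 (s.H_P2.trans (by simp)) (s.Hb_P2.trans (by simp))
  have e7 := k (F.p4 (ge O g)) (-4) 0 (s.H_P4.trans (by simp; rfl)) (s.Hb_P4.trans (by simp))
  have p := (Real.exp_pos w.re).ne'
  generalize Real.exp w.re = t at *
  simp only [add_zero, zero_add, one_mul, zpow_neg, zpow_ofNat, pow_zero]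
    at e1 e2 e3 e4 e5 e6 e7
  refine ⟨e1 ▸ z.lo, e1 ▸ z.hi, norm_ne_zero_iff.1 (e6 ▸ norm_ne_zero_iff.2 z.ne), e4 ▸ z.hq, ?_,
    ?_, ?_, ?_⟩ <;> simp only [e1, e2, e3, e5, e6, e7]
  · exact le_of_eq_of_le (by field_simp) z.u
  · exact le_of_eq_of_le (by field_simp) z.s
  · exact le_of_eq_of_le (by field_simp) z.t
  · exact le_of_eq_of_le (by field_simp) z.w

end hom

theorem sc_unit {y : E6} (h : y.2.2 ≠ 0) :
    ∃ w : ℂ, nq (P354XO.sc (Complex.exp (-w)) y) = 1 ∧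
      y = P354XO.sc (Complex.exp w) (P354XO.sc (Complex.exp (-w)) y) := by
  have p := nq_pos h
  refine ⟨(Real.log (nq y) / 2 : ℝ), ?_, by simp [sc_ap, smul_smul, ← Complex.exp_add]⟩
  rw [nq_sc, ← Complex.ofReal_neg, ← Complex.ofReal_exp, Complex.normSq_ofReal, ← Real.exp_add,
    ← neg_add, add_halves, Real.exp_neg, Real.exp_log p, inv_mul_cancel₀ p.ne']

namespace Gl
variable {M a : ℝ} {U U1 O : Set E6} {α : E6 → E6} {g : Tw} {F : Fr (Sm (on O))}
  (G : Gl M a U U1 O α g F) {x : E6}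
include G

theorem mem (hx : x ∈ U) (hy : α x ∈ O) : x ∈ U1 := by
  obtain ⟨z, hz, e⟩ := G.s2 hy
  rwa [← G.h.dif.left hx, ← e, G.h.dif.left (G.s1 hz)]

theorem q2_a (hx : x ∈ U1) (hy : α x ∈ O) (n : ℕ) (f : Sm (on U1)) :
    q2 (f4 (G.F0.ghp (ge O (P354XE.pb (b4 U α) g)))) (α x) n ((G.h.sq G.s1 G.s2).pb f) =
      q2 (f4 (gT (on U1) M a fun _ => g)) x n f := by
  induction n generalizing f with
  | zero => rw [q2, q2, G.fv_a f hx hy]
  | succ n ih => simp only [q2, ← f4_hom G.hom, ih]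

theorem et0 (hx : x ∈ U1) (hy : α x ∈ O) (n : ℕ) :
    et O (ge O (P354XE.pb (b4 U α) g)) G.F0 n (α x) = eta M a n g x := by
  rw [et, ← G.hom.P0, ← G.hom.P4, G.q2_a hx hy, G.q2_a hx hy, q2_eq _ hx, q2_eq _ hx]
  exact ev_on (etG_eq (g := fun _ => g) G.ev n) hx

end Gl

theorem exp_le (n : ℕ) : Real.exp (4 + 2 * n) ≤ 8 ^ (n + 4) := by
  have e : Real.exp 2 ≤ 8 := by
    have := Real.exp_one_lt_d9
    rw [← one_add_one_eq_two, Real.exp_add]
    nlinarith [Real.exp_pos 1]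
  calc Real.exp (4 + 2 * n) = Real.exp 2 ^ (n + 2) := by
        rw [← Real.exp_nat_mul]; push_cast; ring_nf
    _ ≤ 8 ^ (n + 2) := by gcongr
    _ ≤ 8 ^ (n + 4) := by gcongr <;> norm_num

/-- **The comparison of eta in the two charts.** -/
theorem eta_cmp {M a r1 : ℝ} {A B : ℝ → ℝ} (h0 : 0 < M) (h1 : 0 < r1) (t : IsTh M M a A B)
    (ρ : ℝ) : ∃ δ > 0, ∀ U U1 O α g F M' a', Gl M a U U1 O α g F →
      (F.ghp (ge O (P354XE.pb (b4 U α) g))).P1 = 0 → (F.ghp (ge O (P354XE.pb (b4 U α) g))).P3 = 0 →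
      (∀ x ∈ U1, α x ∈ O → nq (α x) = 1 → x.2.1 ∈ Icc r1 ρ ∧ Pw M a A B U O α g F M' a' δ x) →
      ∀ n, ∀ x ∈ U, nq x = 1 → ∀ w ≠ 0, P354XO.sc w (α x) ∈ O → An (P354XO.sc w (α x)) →
        et O (ge O (P354XE.pb (b4 U α) g)) F n (P354XO.sc w (α x)) ≤
          (16 ^ (n + 4)) ^ 2 * eta M a n g x ∧
        eta M a n g x ≤
          (16 ^ (n + 4)) ^ 2 * et O (ge O (P354XE.pb (b4 U α) g)) F n (P354XO.sc w (α x)) := by
  obtain ⟨δ, hδ, z⟩ := cz_pt (Rs := ρ) h0 h1 t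
  refine ⟨δ / 2, half_pos hδ, fun U U1 O α g F M' a' G t1 t3 pw n x hx ux w hw hy an => ?_⟩
  have z' := fun x hx hy u => z ⟨U, U1, O, α, g, F, M', a', δ / 2, x, G, (pw x hx hy u).2, hx, hy,
    u, (pw x hx hy u).1⟩ (by rw [abs_of_pos (half_pos hδ)]; exact half_lt_self hδ)
  have w0 := fT_wn (g := fun _ => g) G.ev
  have k : Cm (ge O (P354XE.pb (b4 U α) g)) F G.F0 2 := ⟨G.is, fun _ => rfl, G.wn, G.wn0, t1, t3,
    G.hom.P1.symm.trans (by rw [w0.2.1, map_zero]), G.hom.P3.symm.trans (by rw [w0.2.2, map_zero]),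
    one_le_two, on_of G.co.op fun y hy => by
      obtain ⟨v, u, e⟩ := sc_unit (G.co.pos y hy).2
      have o : P354XO.sc (Complex.exp (-v)) y ∈ O := G.co.hom y hy _ (Complex.exp_ne_zero (-v))
      obtain ⟨x, hx, ex⟩ := G.s2 o
      rw [← ex] at o u e
      simp only [← fv_in _ hy]
      exact cz_hom (x := α x) G.co G.is G.wn G.wn0 o v (z' x hx o u).1 e⟩
  have e1 := ev_on (k.eta n) hy
  rw [← et_eq n hy, ← et_eq n hy] at e1
  have sc2 : ∀ (u v : ℂ) (y : E6), P354XO.sc u (P354XO.sc v y) = P354XO.sc (u * v) y :=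
    fun u v y => by simp [sc_ap, smul_smul]
  have o : α x ∈ O := by
    have : P354XO.sc w⁻¹ (P354XO.sc w (α x)) ∈ O := G.co.hom _ hy _ (inv_ne_zero hw)
    rwa [sc2, inv_mul_cancel₀ hw, show P354XO.sc 1 (α x) = α x by simp [sc_ap]] at this
  obtain ⟨v, u, -⟩ := sc_unit (G.co.pos _ o).2
  have nv := Complex.exp_ne_zero (-v)
  have hv := G.h.eqv.hom x hx _ nv
  have ev := G.h.eqv.eqv x hx _ nv
  have ov : P354XO.sc (Complex.exp (-v)) (α x) ∈ O := G.co.hom _ o _ nv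
  have a1 : An (P354XO.sc (Complex.exp (-v)) x) :=
    (z' _ (G.mem hv (ev ▸ ov)) (ev ▸ ov) (ev ▸ u)).2
  rw [An, nq_sc, ux, mul_one] at a1
  rw [An, nq_sc] at an
  rw [nq_sc] at u
  have b : |(Complex.log w).re| ≤ 1 := by
    have p := norm_pos_iff.2 hw
    rw [Complex.normSq_eq_norm_sq w] at an
    have q := nq_pos (G.co.pos _ o).2
    have l1 : 1 / 2 ≤ ‖w‖ := by
      by_contra k
      nlinarith [mul_le_mul_of_nonneg_right a1.1 q.le, mul_pos p p]
    have l2 : ‖w‖ ≤ 2 := by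
      by_contra k
      nlinarith [mul_le_mul_of_nonneg_right a1.2 q.le]
    rw [Complex.log_re, abs_le]
    have := Real.one_sub_inv_le_log_of_pos p
    have : ‖w‖⁻¹ ≤ 2 := inv_le_of_inv_le₀ two_pos (by linarith)
    constructor <;> linarith [Real.log_le_sub_one_of_pos p]
  have e2 := et_hom G.co G.is G.wn0 o b n
  have e3 := et_hom G.co G.is G.wn0 hy (w := -Complex.log w) (by simpa using b) n
  rw [Complex.exp_log hw, G.et0 (G.mem hx o) o] at e2
  rw [Complex.exp_neg, Complex.exp_log hw, sc2, inv_mul_cancel₀ hw,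
    show P354XO.sc 1 (α x) = α x by simp [sc_ap], G.et0 (G.mem hx o) o] at e3
  have c : Real.exp (4 + 2 * n) ^ 2 * (2 ^ (n + 4)) ^ 2 ≤ (16 ^ (n + 4)) ^ 2 := by
    rw [← mul_pow, show (16 : ℝ) = 8 * 2 by norm_num, mul_pow 8 2]
    gcongr
    exact exp_le n
  have n1 := eta_nonneg (M := M) (a := a) n g x
  have n2 : 0 ≤ et O (ge O (P354XE.pb (b4 U α) g)) F n (P354XO.sc w (α x)) := by
    rw [et_eq n hy]
    exact add_nonneg (qq_nonneg _ _ _ _) (qq_nonneg _ _ _ _)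
  refine ⟨e1.2.trans ((mul_le_mul_of_nonneg_left e2 (by positivity)).trans ?_),
    e3.trans ((mul_le_mul_of_nonneg_left e1.1 (by positivity)).trans ?_)⟩
  · rw [← mul_assoc, mul_comm _ (Real.exp _ ^ 2)]
    gcongr
  · rw [← mul_assoc]
    gcongr

end Vale.Agent.P354Z
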